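import Mathlib

/-!
# P078: second moment of random colourings
-/

open Finset

namespace P078

variable {n r : ℕ}

/-- centred indicator of equal colours -/
noncomputable def zt (c : Fin n → Fin r) (p : Fin n × Fin n) : ℝ :=
  if p.1 = p.2 then 0 else (if c p.1 = c p.2 then 1 else 0) - 1 / r

theorem zt_abs (c : Fin n → Fin r) (p : Fin n × Fin n) : |zt c p| ≤ 1 := by
  unfold zt
  split_ifs with h1 h2
  · simp
  · have hr : 0 < r := Fin.pos (c p.1)
    have h3 : (1 : ℝ) / r ≤ 1 := by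
      rw [div_le_one (by exact_mod_cast hr)]
      exact_mod_cast hr
    have h4 : (0 : ℝ) ≤ 1 / r := by positivity
    rw [abs_le]
    constructor <;> linarith
  · have hr : 0 < r := Fin.pos (c p.1)
    have h3 : (1 : ℝ) / r ≤ 1 := by
      rw [div_le_one (by exact_mod_cast hr)]
      exact_mod_cast hr
    have h4 : (0 : ℝ) ≤ 1 / r := by positivity
    rw [abs_le]
    constructor <;> linarith

theorem sum_zero (hr : 0 < r) {i k : Fin n} (hik : i ≠ k) (g : (Fin n → Fin r) → ℝ)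
    (hg : ∀ c c', (∀ j, j ≠ i → c j = c' j) → g c = g c') :
    ∑ c : Fin n → Fin r, g c * ((if c i = c k then 1 else 0) - 1 / (r : ℝ)) = 0 := by
  rw [Fintype.sum_equiv (Equiv.funSplitAt i (Fin r)) _
    (fun p => g ((Equiv.funSplitAt i (Fin r)).symm p) *
      ((if (Equiv.funSplitAt i (Fin r)).symm p i = (Equiv.funSplitAt i (Fin r)).symm p k
        then 1 else 0) - 1 / (r : ℝ))) (fun c => by rw [Equiv.symm_apply_apply]),
    Fintype.sum_prod_type_right]
  refine Finset.sum_eq_zero fun c' _ => ?_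
  let t₀ : Fin r := ⟨0, hr⟩
  have h1 : ∀ t : Fin r, g ((Equiv.funSplitAt i (Fin r)).symm (t, c')) =
      g ((Equiv.funSplitAt i (Fin r)).symm (t₀, c')) := by
    intro t
    refine hg _ _ fun j hj => ?_
    simp [Equiv.funSplitAt, Equiv.piSplitAt, hj]
  have h2 : ∀ t : Fin r, (Equiv.funSplitAt i (Fin r)).symm (t, c') i = t := by
    intro t
    simp [Equiv.funSplitAt, Equiv.piSplitAt]
  have h3 : ∀ t : Fin r, (Equiv.funSplitAt i (Fin r)).symm (t, c') k = c' ⟨k, hik.symm⟩ := by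
    intro t
    simp [Equiv.funSplitAt, Equiv.piSplitAt, hik.symm]
  simp_rw [h1, h2, h3]
  rw [← Finset.mul_sum, Finset.sum_sub_distrib]
  have h4 : (r : ℝ) ≠ 0 := by exact_mod_cast hr.ne'
  simp [h4]

theorem K_zero {p p' : Fin n × Fin n} (h1 : p' ≠ p) (h2 : p' ≠ p.swap) :
    ∑ c : Fin n → Fin r, zt c p * zt c p' = 0 := by
  rcases Nat.eq_zero_or_pos r with hr | hr
  · subst hr
    refine Finset.sum_eq_zero fun c _ => ?_
    exact (c p.1).elim0
  by_cases hp : p.1 = p.2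
  · simp [zt, hp]
  by_cases hp' : p'.1 = p'.2
  · simp [zt, hp']
  have hz : ∀ i : Fin n, i ≠ p'.1 → i ≠ p'.2 → ∀ c c' : Fin n → Fin r,
      (∀ j, j ≠ i → c j = c' j) → zt c p' = zt c' p' := by
    intro i hi1 hi2 c c' hc
    unfold zt
    rw [hc _ hi1.symm, hc _ hi2.symm]
  by_cases hc : p.1 ≠ p'.1 ∧ p.1 ≠ p'.2
  · have := sum_zero hr hp (fun c => zt c p') (hz _ hc.1 hc.2)
    rw [← this]
    refine Finset.sum_congr rfl fun c _ => ?_
    rw [mul_comm]
    congr 1
    simp [zt, hp]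
  · have hc2 : p.2 ≠ p'.1 ∧ p.2 ≠ p'.2 := by
      by_contra h
      apply h1
      obtain ⟨a, b⟩ := p
      obtain ⟨a', b'⟩ := p'
      simp only [ne_eq, Prod.mk.injEq, Prod.swap_prod_mk] at *
      omega
    have hp2 : p.2 ≠ p.1 := fun h => hp h.symm
    have := sum_zero hr hp2 (fun c => zt c p') (hz _ hc2.1 hc2.2)
    rw [← this]
    refine Finset.sum_congr rfl fun c _ => ?_
    rw [mul_comm]
    congr 1
    simp [zt, hp, eq_comm]

theorem K_le (p p' : Fin n × Fin n) :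
    |∑ c : Fin n → Fin r, zt c p * zt c p'| ≤
      (r : ℝ) ^ n * ((if p' = p then 1 else 0) + (if p' = p.swap then 1 else 0)) := by
  by_cases h : p' = p ∨ p' = p.swap
  · calc |∑ c : Fin n → Fin r, zt c p * zt c p'| ≤ ∑ c : Fin n → Fin r, |zt c p * zt c p'| :=
          Finset.abs_sum_le_sum_abs _ _
      _ ≤ ∑ c : Fin n → Fin r, (1 : ℝ) := by
          refine Finset.sum_le_sum fun c _ => ?_
          rw [abs_mul]
          exact mul_le_one₀ (zt_abs c p) (abs_nonneg _) (zt_abs c p')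
      _ = (r : ℝ) ^ n * 1 := by simp
      _ ≤ _ := by
          gcongr
          rcases h with h | h
          · rw [if_pos h]
            split_ifs <;> norm_num
          · rw [if_pos h]
            split_ifs <;> norm_num
  · push Not at h
    rw [K_zero h.1 h.2, if_neg h.1, if_neg h.2]
    simp

theorem moment_real (z : Fin n × Fin n → ℝ) :
    ∑ c : Fin n → Fin r, (∑ p, zt c p * z p) ^ 2 ≤ (r : ℝ) ^ n * (2 * ∑ p, z p ^ 2) := by
  have h1 : ∑ c : Fin n → Fin r, (∑ p, zt c p * z p) ^ 2 =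
      ∑ p, ∑ p', z p * z p' * ∑ c : Fin n → Fin r, zt c p * zt c p' := by
    simp_rw [sq, Finset.sum_mul_sum, Finset.mul_sum]
    rw [Finset.sum_comm]
    refine Finset.sum_congr rfl fun p _ => ?_
    rw [Finset.sum_comm]
    refine Finset.sum_congr rfl fun p' _ => ?_
    refine Finset.sum_congr rfl fun c _ => ?_
    ring
  rw [h1]
  have h2 : ∀ p : Fin n × Fin n, ∑ p', z p * z p' * ∑ c : Fin n → Fin r, zt c p * zt c p' ≤
      (r : ℝ) ^ n * (|z p| * |z p| + |z p| * |z p.swap|) := by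
    intro p
    calc ∑ p', z p * z p' * ∑ c : Fin n → Fin r, zt c p * zt c p'
        ≤ ∑ p', |z p| * |z p'| * ((r : ℝ) ^ n * ((if p' = p then 1 else 0) +
            (if p' = p.swap then 1 else 0))) := by
          refine Finset.sum_le_sum fun p' _ => ?_
          refine (le_abs_self _).trans ?_
          rw [abs_mul, abs_mul]
          exact mul_le_mul_of_nonneg_left (K_le p p') (by positivity)
      _ = (r : ℝ) ^ n * (|z p| * |z p| + |z p| * |z p.swap|) := by
          have : ∀ p' : Fin n × Fin n, |z p| * |z p'| * ((r : ℝ) ^ n *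
              ((if p' = p then 1 else 0) + (if p' = p.swap then 1 else 0))) =
              (if p' = p then (r : ℝ) ^ n * (|z p| * |z p'|) else 0) +
              (if p' = p.swap then (r : ℝ) ^ n * (|z p| * |z p'|) else 0) := by
            intro p'
            split_ifs <;> ring
          simp_rw [this]
          rw [Finset.sum_add_distrib, Finset.sum_ite_eq', Finset.sum_ite_eq']
          simp only [Finset.mem_univ, if_true]
          ring
  refine (Finset.sum_le_sum fun p _ => h2 p).trans ?_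
  rw [← Finset.mul_sum]
  refine mul_le_mul_of_nonneg_left ?_ (by positivity)
  have h3 : ∀ p : Fin n × Fin n, |z p| * |z p| + |z p| * |z p.swap| ≤
      z p ^ 2 + (z p ^ 2 + z p.swap ^ 2) / 2 := by
    intro p
    have := sq_abs (z p)
    have := sq_abs (z p.swap)
    nlinarith [sq_nonneg (|z p| - |z p.swap|)]
  refine (Finset.sum_le_sum fun p _ => h3 p).trans ?_
  rw [Finset.sum_add_distrib, ← Finset.sum_div, Finset.sum_add_distrib]
  have h4 : ∑ p : Fin n × Fin n, z p.swap ^ 2 = ∑ p, z p ^ 2 :=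
    Equiv.sum_comp (Equiv.prodComm (Fin n) (Fin n)) (fun p => z p ^ 2)
  rw [h4]
  linarith

theorem moment_complex (z : Fin n × Fin n → ℂ) :
    ∑ c : Fin n → Fin r, ‖∑ p, (zt c p : ℂ) * z p‖ ^ 2 ≤
      (r : ℝ) ^ n * (2 * ∑ p, ‖z p‖ ^ 2) := by
  have h1 : ∀ c : Fin n → Fin r, ‖∑ p, (zt c p : ℂ) * z p‖ ^ 2 =
      (∑ p, zt c p * (z p).re) ^ 2 + (∑ p, zt c p * (z p).im) ^ 2 := by
    intro c
    rw [Complex.sq_norm, Complex.normSq_apply, Complex.re_sum, Complex.im_sum]
    simp only [Complex.re_ofReal_mul, Complex.im_ofReal_mul]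
    ring
  have h2 : ∑ p, ‖z p‖ ^ 2 = ∑ p, (z p).re ^ 2 + ∑ p, (z p).im ^ 2 := by
    rw [← Finset.sum_add_distrib]
    refine Finset.sum_congr rfl fun p _ => ?_
    rw [Complex.sq_norm, Complex.normSq_apply]
    ring
  simp_rw [h1]
  rw [Finset.sum_add_distrib, h2]
  have h3 := moment_real (r := r) (fun p => (z p).re)
  have h4 := moment_real (r := r) (fun p => (z p).im)
  linarith

/-- a good colouring -/
theorem exists_colouring (hr : 0 < r) {S : Type} [Fintype S] (z : S → Fin n × Fin n → ℂ) :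
    ∃ c : Fin n → Fin r, ∑ s, ‖∑ p, (zt c p : ℂ) * z s p‖ ^ 2 ≤ 2 * ∑ s, ∑ p, ‖z s p‖ ^ 2 := by
  by_contra hcon
  push Not at hcon
  have : Nonempty (Fin n → Fin r) := ⟨fun _ => ⟨0, hr⟩⟩
  have h1 : ∑ c : Fin n → Fin r, (2 * ∑ s, ∑ p, ‖z s p‖ ^ 2) <
      ∑ c : Fin n → Fin r, ∑ s, ‖∑ p, (zt c p : ℂ) * z s p‖ ^ 2 :=
    Finset.sum_lt_sum_of_nonempty Finset.univ_nonempty fun c _ => hcon c
  have h0 : ∑ c : Fin n → Fin r, ∑ s, ‖∑ p, (zt c p : ℂ) * z s p‖ ^ 2 =
      ∑ s, ∑ c : Fin n → Fin r, ‖∑ p, (zt c p : ℂ) * z s p‖ ^ 2 := Finset.sum_comm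
  rw [h0] at h1
  have h2 : ∑ s, ∑ c : Fin n → Fin r, ‖∑ p, (zt c p : ℂ) * z s p‖ ^ 2 ≤
      ∑ s, (r : ℝ) ^ n * (2 * ∑ p, ‖z s p‖ ^ 2) :=
    Finset.sum_le_sum fun s _ => moment_complex (z s)
  have h3 : ∑ s, (r : ℝ) ^ n * (2 * ∑ p, ‖z s p‖ ^ 2) =
      ∑ c : Fin n → Fin r, (2 * ∑ s, ∑ p, ‖z s p‖ ^ 2) := by
    rw [Finset.sum_const, Finset.card_univ, Fintype.card_fun, Fintype.card_fin, Fintype.card_fin,
      nsmul_eq_mul, ← Finset.mul_sum, ← Finset.mul_sum]
    push_cast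
    ring
  rw [h3] at h2
  exact absurd h1 (not_lt.mpr h2)

end P078
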