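import Mathlib

/-!
# P078: so-paving over maximal abelian subalgebras, definitions
-/

namespace P078

universe u

variable {H : Type u} [NormedAddCommGroup H] [InnerProductSpace ℂ H] [CompleteSpace H]

/-- `A` is a maximal abelian self-adjoint subalgebra of `M` -/
def IsMasa (M A : StarSubalgebra ℂ (H →L[ℂ] H)) : Prop :=
  A ≤ M ∧ (∀ a ∈ A, ∀ b ∈ A, a * b = b * a) ∧
    ∀ B : StarSubalgebra ℂ (H →L[ℂ] H), B ≤ M → (∀ a ∈ B, ∀ b ∈ B, a * b = b * a) →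
      A ≤ B → B ≤ A

/-- `A` is diffuse: no projection of `A` is minimal -/
def Diffuse (A : StarSubalgebra ℂ (H →L[ℂ] H)) : Prop :=
  ∀ p ∈ A, IsStarProjection p → p ≠ 0 →
    ∃ e ∈ A, IsStarProjection e ∧ e ≠ 0 ∧ e ≠ p ∧ p * e = e

/-- the self-adjoint operator `x` is `(ε, r)` so-pavable over `A` in `M` -/
def SoPavable (M A : StarSubalgebra ℂ (H →L[ℂ] H)) (x : H →L[ℂ] H) (ε : ℝ) (r : ℕ) : Prop :=
  ∀ (F : Finset H) (δ : ℝ), 0 < δ →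
    ∃ (P : Fin r → H →L[ℂ] H) (a q : H →L[ℂ] H),
      (∀ i, P i ∈ A ∧ IsStarProjection (P i)) ∧ (∀ i j, i ≠ j → P i * P j = 0) ∧
      (∑ i, P i = 1) ∧ a ∈ A ∧ IsSelfAdjoint a ∧ ‖a‖ ≤ ‖x‖ ∧
      q ∈ M ∧ IsStarProjection q ∧ (∀ ξ ∈ F, ‖(1 - q) ξ‖ < δ) ∧
      ‖q * (∑ i, P i * x * P i - a) * q‖ ≤ ε * ‖x‖

/-- the paving number `n_{A ⊆ M}(ε)` -/
noncomputable def npav (M A : StarSubalgebra ℂ (H →L[ℂ] H)) (ε : ℝ) : ℕ∞ :=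
  sInf {n : ℕ∞ | ∃ r : ℕ, n = r ∧ 1 ≤ r ∧ ∀ x ∈ M, IsSelfAdjoint x → SoPavable M A x ε r}

end P078
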