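import Mathlib

/-!
# P078: a finite dimensional subspace on which a self-adjoint operator avoids one end of its
numerical range
-/

open scoped InnerProductSpace Topology
open Filter

namespace P078

universe u

variable {H : Type u} [NormedAddCommGroup H] [InnerProductSpace ℂ H] [CompleteSpace H]

theorem eq_case {x : H →L[ℂ] H} {s : ℝ} (hs : s = 1 ∨ s = -1) {w : H}
    (h : ‖x‖ * ‖w‖ ^ 2 ≤ s * (⟪w, x w⟫_ℂ).re) : x w = ((s * ‖x‖ : ℝ) : ℂ) • w := by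
  have hs2 : s ^ 2 = 1 := by rcases hs with h | h <;> rw [h] <;> norm_num
  set c : ℝ := s * ‖x‖ with hc
  rw [← sub_eq_zero, ← norm_le_zero_iff]
  have h1 : ‖x w - ((c : ℝ) : ℂ) • w‖ ^ 2 =
      ‖x w‖ ^ 2 - 2 * (c * (⟪w, x w⟫_ℂ).re) + c ^ 2 * ‖w‖ ^ 2 := by
    rw [@norm_sub_sq ℂ, inner_smul_right, norm_smul, Complex.norm_real, mul_pow,
      Real.norm_eq_abs, sq_abs]
    have h0 : (⟪x w, w⟫_ℂ).re = (⟪w, x w⟫_ℂ).re := inner_re_symm (𝕜 := ℂ) (x w) w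
    have h1 : RCLike.re ((c : ℂ) * ⟪x w, w⟫_ℂ) = c * (⟪w, x w⟫_ℂ).re := by
      rw [← h0]
      exact Complex.re_ofReal_mul c _
    rw [h1]
  have h2 : ‖x w‖ ^ 2 ≤ ‖x‖ ^ 2 * ‖w‖ ^ 2 := by
    rw [← mul_pow]
    exact pow_le_pow_left₀ (norm_nonneg _) (x.le_opNorm w) 2
  have h3 : ‖x‖ * (‖x‖ * ‖w‖ ^ 2) ≤ ‖x‖ * (s * (⟪w, x w⟫_ℂ).re) :=
    mul_le_mul_of_nonneg_left h (norm_nonneg _)
  have h4 : c ^ 2 = ‖x‖ ^ 2 := by rw [hc, mul_pow, hs2, one_mul]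
  have h5 : ‖x w - ((c : ℝ) : ℂ) • w‖ ^ 2 ≤ 0 := by
    rw [h1, h4]
    have h6 : c * (⟪w, x w⟫_ℂ).re = ‖x‖ * (s * (⟪w, x w⟫_ℂ).re) := by rw [hc]; ring
    rw [h6]
    nlinarith
  have h7 : ‖x w - ((c : ℝ) : ℂ) • w‖ = 0 :=
    pow_eq_zero_iff (two_ne_zero) |>.mp (le_antisymm h5 (sq_nonneg _))
  exact h7.le

/-- the eigenspace -/
def Es (x : H →L[ℂ] H) (c : ℂ) : Submodule ℂ H :=
  LinearMap.ker ((x - c • (1 : H →L[ℂ] H) : H →L[ℂ] H) : H →ₗ[ℂ] H)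

theorem mem_Es {x : H →L[ℂ] H} {c : ℂ} {w : H} : w ∈ Es x c ↔ x w = c • w := by
  unfold Es
  rw [LinearMap.mem_ker]
  change x w - c • w = 0 ↔ _
  rw [sub_eq_zero]

theorem Es_closed (x : H →L[ℂ] H) (c : ℂ) : IsClosed (Es x c : Set H) :=
  ContinuousLinearMap.isClosed_ker (x - c • (1 : H →L[ℂ] H))

instance (x : H →L[ℂ] H) (c : ℂ) : CompleteSpace (Es x c) :=
  (Es_closed x c).completeSpace_coe

theorem exists_sign (hinf : ¬ FiniteDimensional ℂ H) {x : H →L[ℂ] H} (hx0 : x ≠ 0) (m : ℕ) :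
    ∃ s : ℝ, (s = 1 ∨ s = -1) ∧ ∃ u : Fin m → (Es x ((s * ‖x‖ : ℝ) : ℂ))ᗮ,
      LinearIndependent ℂ u := by
  by_contra hcon
  push Not at hcon
  have key : ∀ s : ℝ, (s = 1 ∨ s = -1) →
      FiniteDimensional ℂ (Es x ((s * ‖x‖ : ℝ) : ℂ))ᗮ := by
    intro s hs
    by_contra hf
    have h1 : (m : Cardinal) ≤ Module.rank ℂ (Es x ((s * ‖x‖ : ℝ) : ℂ))ᗮ := by
      rw [FiniteDimensional, ← Module.rank_lt_aleph0_iff, not_lt] at hf
      exact (Cardinal.natCast_lt_aleph0).le.trans hf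
    obtain ⟨u, hu⟩ := natCast_le_rank_iff.mp h1
    exact hcon s hs u hu
  have h1 := key 1 (Or.inl rfl)
  have h2 := key (-1) (Or.inr rfl)
  set E1 := Es x (((1 : ℝ) * ‖x‖ : ℝ) : ℂ) with hE1
  set E2 := Es x (((-1 : ℝ) * ‖x‖ : ℝ) : ℂ) with hE2
  have h3 : FiniteDimensional ℂ (E1ᗮ ⊔ E2ᗮ : Submodule ℂ H) := inferInstance
  have h4 : (E1ᗮ ⊔ E2ᗮ)ᗮ = ⊥ := by
    rw [← Submodule.inf_orthogonal, Submodule.orthogonal_orthogonal,
      Submodule.orthogonal_orthogonal, eq_bot_iff]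
    rintro w ⟨hw1, hw2⟩
    have e1 := mem_Es.mp hw1
    have e2 := mem_Es.mp hw2
    have hx : (‖x‖ : ℂ) ≠ 0 := by exact_mod_cast (norm_pos_iff.mpr hx0).ne'
    rw [e1] at e2
    have e3 : ((2 * ‖x‖ : ℝ) : ℂ) • w = 0 := by
      have : ((2 * ‖x‖ : ℝ) : ℂ) = (((1 : ℝ) * ‖x‖ : ℝ) : ℂ) - (((-1 : ℝ) * ‖x‖ : ℝ) : ℂ) := by
        push_cast; ring
      rw [this, sub_smul, e2, sub_self]
    rcases smul_eq_zero.mp e3 with h | h
    · exfalso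
      apply hx
      have : (2 * ‖x‖ : ℝ) = 0 := by exact_mod_cast h
      have : ‖x‖ = 0 := by linarith
      exact_mod_cast this
    · rw [h]; exact Submodule.zero_mem _
  have h5 : (E1ᗮ ⊔ E2ᗮ : Submodule ℂ H) = ⊤ := by
    have := Submodule.orthogonal_orthogonal (K := (E1ᗮ ⊔ E2ᗮ : Submodule ℂ H))
    rw [← this, h4, Submodule.bot_orthogonal_eq_top]
  apply hinf
  rw [h5] at h3
  exact (Submodule.topEquiv : (⊤ : Submodule ℂ H) ≃ₗ[ℂ] H).finiteDimensional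

theorem tilt (hinf : ¬ FiniteDimensional ℂ H) {x : H →L[ℂ] H} (hx0 : x ≠ 0)
    (F : Finset H) {δ : ℝ} (hδ : 0 < δ) :
    ∃ (V : Submodule ℂ H) (s θ : ℝ), FiniteDimensional ℂ V ∧ (s = 1 ∨ s = -1) ∧ 0 < θ ∧
      θ ≤ ‖x‖ ∧ (∀ ξ ∈ F, ∃ v ∈ V, ‖ξ - v‖ < δ) ∧
      ∀ w ∈ V, s * (⟪w, x w⟫_ℂ).re ≤ (‖x‖ - θ) * ‖w‖ ^ 2 := by
  have hxp : 0 < ‖x‖ := norm_pos_iff.mpr hx0
  set V₀ : Submodule ℂ H := Submodule.span ℂ (F : Set H) with hV₀
  have hfin : FiniteDimensional ℂ V₀ := FiniteDimensional.span_finset ℂ F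
  obtain ⟨s, hs, hu'⟩ := exists_sign hinf hx0 (Module.finrank ℂ V₀)
  set E := Es x ((s * ‖x‖ : ℝ) : ℂ) with hE
  obtain ⟨u, hu⟩ := hu'
  have hsp : Module.finrank ℂ V₀ = Module.finrank ℂ (Submodule.span ℂ (Set.range u)) := by
    rw [finrank_span_eq_card hu, Fintype.card_fin]
  have hfs : FiniteDimensional ℂ (Submodule.span ℂ (Set.range u)) :=
    FiniteDimensional.span_of_finite ℂ (Set.finite_range u)
  let e : V₀ ≃ₗ[ℂ] Submodule.span ℂ (Set.range u) := LinearEquiv.ofFinrankEq _ _ hsp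
  let J : V₀ →ₗ[ℂ] Eᗮ := (Submodule.subtype _).comp e.toLinearMap
  have hJ : Function.Injective J := (Submodule.injective_subtype _).comp e.injective
  obtain ⟨L, hL⟩ := LinearMap.exists_leftInverse_of_injective J (LinearMap.ker_eq_bot.mpr hJ)
  let P : H →ₗ[ℂ] Eᗮ := (Eᗮ.orthogonalProjectionOnto : H →L[ℂ] Eᗮ)
  let T₀ : Module.End ℂ V₀ := L.comp (P.comp V₀.subtype)
  have hev : {μ : ℂ | T₀.HasEigenvalue μ}.Finite := Module.End.finite_hasEigenvalue T₀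
  set τ : ℝ := δ / (1 + ∑ ξ ∈ F.attach, ‖(J ⟨ξ.1, Submodule.subset_span ξ.2⟩ : H)‖) with hτ
  have hτ0 : 0 < τ := by positivity
  obtain ⟨t, ⟨ht0, htτ⟩, ht⟩ : ∃ t ∈ Set.Ioo 0 τ, t ∉ (fun t : ℝ => -(t : ℂ)) ⁻¹'
      {μ : ℂ | T₀.HasEigenvalue μ} := by
    have hf : ((fun t : ℝ => -(t : ℂ)) ⁻¹' {μ : ℂ | T₀.HasEigenvalue μ}).Finite :=
      hev.preimage (by
        intro a _ b _ h
        exact_mod_cast neg_injective h)
    exact (Set.Ioo_infinite hτ0).exists_notMem_finite hf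
  let Ψ : V₀ →ₗ[ℂ] H := V₀.subtype + (t : ℂ) • (Eᗮ.subtype.comp J)
  have hΨ : ∀ v, Ψ v = (v : H) + (t : ℂ) • (J v : H) := fun v => rfl
  set V : Submodule ℂ H := LinearMap.range Ψ with hV
  have hVf : FiniteDimensional ℂ V := inferInstance
  have hVE : ∀ w ∈ V, w ∈ E → w = 0 := by
    rintro _ ⟨v, rfl⟩ hw
    have h1 : P (Ψ v) = 0 :=
      Submodule.orthogonalProjectionOnto_eq_zero_iff.mpr
        (Submodule.le_orthogonal_orthogonal E hw)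
    have h2 : P (J v : H) = J v := Submodule.orthogonalProjectionOnto_mem_subspace_eq_self (J v)
    rw [hΨ, map_add, map_smul, h2] at h1
    have h3 := congrArg L h1
    rw [map_add, map_smul, map_zero] at h3
    have h4 : L (J v) = v := congrArg (fun S : V₀ →ₗ[ℂ] V₀ => S v) hL
    rw [h4] at h3
    have h5 : T₀ v = -(t : ℂ) • v := by
      rw [neg_smul, eq_neg_iff_add_eq_zero]
      exact h3
    have h6 : v = 0 := by
      by_contra hv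
      exact ht (Module.End.hasEigenvalue_of_hasEigenvector
        ⟨Module.End.mem_eigenspace_iff.mpr h5, hv⟩)
    rw [h6, map_zero]
  have hlt : ∀ w ∈ V, w ≠ 0 → s * (⟪w, x w⟫_ℂ).re < ‖x‖ * ‖w‖ ^ 2 := by
    intro w hw hw0
    by_contra hcon
    push Not at hcon
    exact hw0 (hVE w hw (mem_Es.mpr (eq_case hs hcon)))
  have hcont : Continuous fun w : V => s * (⟪(w : H), x w⟫_ℂ).re := by
    refine continuous_const.mul (Complex.continuous_re.comp ?_)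
    exact (continuous_subtype_val).inner (x.continuous.comp continuous_subtype_val)
  have hθ : ∃ θ : ℝ, 0 < θ ∧ θ ≤ ‖x‖ ∧ ∀ w : V, ‖w‖ = 1 →
      s * (⟪(w : H), x w⟫_ℂ).re ≤ ‖x‖ - θ := by
    have hp : ProperSpace V := FiniteDimensional.proper ℂ V
    rcases (Metric.sphere (0 : V) 1).eq_empty_or_nonempty with h | h
    · refine ⟨‖x‖, hxp, le_rfl, fun w hw => ?_⟩
      have : w ∈ Metric.sphere (0 : V) 1 := by simpa using hw
      rw [h] at this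
      exact absurd this (Set.notMem_empty _)
    · obtain ⟨w₀, hw₀, hmax⟩ := (isCompact_sphere (0 : V) 1).exists_isMaxOn h hcont.continuousOn
      have hn : ‖w₀‖ = 1 := by simpa using hw₀
      have hw₀0 : (w₀ : H) ≠ 0 := by
        intro h0
        have : ‖(w₀ : H)‖ = 1 := hn
        rw [h0, norm_zero] at this
        exact zero_ne_one this
      have h1 := hlt w₀ w₀.2 hw₀0
      have h2 : ‖(w₀ : H)‖ = 1 := hn
      rw [h2, one_pow, mul_one] at h1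
      refine ⟨min (‖x‖ - s * (⟪(w₀ : H), x w₀⟫_ℂ).re) ‖x‖, lt_min (by linarith) hxp,
        min_le_right _ _, fun w hw => ?_⟩
      have h3 : s * (⟪(w : H), x w⟫_ℂ).re ≤ s * (⟪(w₀ : H), x w₀⟫_ℂ).re :=
        hmax (show w ∈ Metric.sphere (0 : V) 1 by simpa using hw)
      have h4 := min_le_left (‖x‖ - s * (⟪(w₀ : H), x w₀⟫_ℂ).re) ‖x‖
      linarith
  obtain ⟨θ, hθ0, hθx, hθ⟩ := hθ
  refine ⟨V, s, θ, hVf, hs, hθ0, hθx, fun ξ hξ => ?_, fun w hw => ?_⟩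
  · refine ⟨Ψ ⟨ξ, Submodule.subset_span hξ⟩, LinearMap.mem_range_self _ _, ?_⟩
    rw [hΨ]
    have h1 : ξ - (ξ + (t : ℂ) • (J ⟨ξ, Submodule.subset_span hξ⟩ : H)) =
        -((t : ℂ) • (J ⟨ξ, Submodule.subset_span hξ⟩ : H)) := by abel
    change ‖ξ - (ξ + (t : ℂ) • (J ⟨ξ, Submodule.subset_span hξ⟩ : H))‖ < δ
    rw [h1, norm_neg, norm_smul, Complex.norm_real, Real.norm_of_nonneg ht0.le]
    have h2 : ‖(J ⟨ξ, Submodule.subset_span hξ⟩ : H)‖ ≤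
        ∑ ξ ∈ F.attach, ‖(J ⟨ξ.1, Submodule.subset_span ξ.2⟩ : H)‖ :=
      Finset.single_le_sum (f := fun ξ : F => ‖(J ⟨ξ.1, Submodule.subset_span ξ.2⟩ : H)‖)
        (fun _ _ => norm_nonneg _) (Finset.mem_attach F ⟨ξ, hξ⟩)
    set Sg := ∑ ξ ∈ F.attach, ‖(J ⟨ξ.1, Submodule.subset_span ξ.2⟩ : H)‖ with hSg
    have h0 : 0 ≤ Sg := (norm_nonneg _).trans h2
    calc t * ‖(J ⟨ξ, Submodule.subset_span hξ⟩ : H)‖ ≤ t * Sg := by gcongr
      _ < τ * (1 + Sg) := by nlinarith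
      _ = δ := by
          have h9 : (0 : ℝ) < 1 + Sg := by linarith
          rw [hτ]
          exact div_mul_cancel₀ δ h9.ne'
  · by_cases hw0 : w = 0
    · rw [hw0]; simp
    · have hn : ‖w‖ ≠ 0 := norm_ne_zero_iff.mpr hw0
      have hnp : 0 < ‖w‖ := norm_pos_iff.mpr hw0
      let w' : V := ⟨((‖w‖⁻¹ : ℝ) : ℂ) • w, V.smul_mem _ hw⟩
      have h1 : ‖w'‖ = 1 := by
        change ‖((‖w‖⁻¹ : ℝ) : ℂ) • w‖ = 1
        rw [norm_smul, Complex.norm_real, norm_inv, norm_norm, inv_mul_cancel₀ hn]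
      have h2 := hθ w' h1
      have h3 : (⟪(w' : H), x w'⟫_ℂ).re = ‖w‖⁻¹ ^ 2 * (⟪w, x w⟫_ℂ).re := by
        change (⟪((‖w‖⁻¹ : ℝ) : ℂ) • w, x (((‖w‖⁻¹ : ℝ) : ℂ) • w)⟫_ℂ).re = _
        rw [map_smul, inner_smul_left, inner_smul_right, Complex.conj_ofReal,
          Complex.re_ofReal_mul, Complex.re_ofReal_mul]
        ring
      rw [h3] at h2
      have h4 : s * (⟪w, x w⟫_ℂ).re = (s * (‖w‖⁻¹ ^ 2 * (⟪w, x w⟫_ℂ).re)) * ‖w‖ ^ 2 := by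
        field_simp
      rw [h4]
      exact mul_le_mul_of_nonneg_right h2 (sq_nonneg _)

end P078
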