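import Vale.Agent.Lib.P078.Upper
import Vale.Agent.Lib.P078.Tilt
import Vale.Agent.Lib.P078S.Lower

/-!
# P078: `(ε, r)` so-pavability for all `r ≥ 1 / ε`
-/

open scoped InnerProductSpace Topology
open Filter

namespace P078

universe u

variable {H : Type u} [NormedAddCommGroup H] [InnerProductSpace ℂ H] [CompleteSpace H]
variable {A : StarSubalgebra ℂ (H →L[ℂ] H)}

theorem toMax (h : Vale.Agent.P078.MA A) : Max A := ⟨h.comm, h.cent⟩

theorem toDiffuse (h : Vale.Agent.P078.MA A) (hd : Vale.Agent.P078.Diffuse A) : Diffuse A := by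
  intro p hp hpp hp0
  obtain ⟨q, hq, hqq, hq0, hqp, hqq2⟩ := hd p hp hpp hp0
  exact ⟨q, hq, hqq, hq0, hqp, by rw [h.comm p hp q hq, hqq2]⟩

theorem not_finite [Nontrivial H] (hd : Vale.Agent.P078.Diffuse A) :
    ¬ FiniteDimensional ℂ H := by
  intro hf
  obtain ⟨f, hf1, hf2⟩ := Vale.Agent.P078.exists_orth hd (Module.finrank ℂ H + 1)
  have hv : ∀ i, ∃ v, f i v ≠ 0 := by
    intro i
    by_contra hcon
    push Not at hcon
    exact (hf1 i).2.2 (ContinuousLinearMap.ext hcon)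
  choose v hv using hv
  have hli : LinearIndependent ℂ fun i => f i (v i) := by
    refine linearIndependent_of_ne_zero_of_inner_eq_zero hv fun i j hij => ?_
    change ⟪f i (v i), f j (v j)⟫_ℂ = 0
    rw [proj_inner (hf1 i).2.1]
    have h1 : f i (f j (v j)) = 0 :=
      congrArg (fun T : H →L[ℂ] H => T (v j)) (hf2 i j hij)
    rw [h1, inner_zero_right]
  have := hli.fintype_card_le_finrank
  rw [Fintype.card_fin] at this
  omega

theorem sa_norm {Z : H →L[ℂ] H} (hZ : IsSelfAdjoint Z) {C : ℝ} (hC : 0 ≤ C)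
    (h : ∀ w, |(⟪w, Z w⟫_ℂ).re| ≤ C * ‖w‖ ^ 2) : ‖Z‖ ≤ C := by
  refine ContinuousLinearMap.opNorm_le_bound _ hC fun u => ?_
  have hsym := ContinuousLinearMap.isSelfAdjoint_iff_isSymmetric.mp hZ
  have key : ∀ v : H, 2 * (⟪Z u, v⟫_ℂ).re ≤ C * (‖u‖ ^ 2 + ‖v‖ ^ 2) := by
    intro v
    have h1 : (⟪u, Z v⟫_ℂ).re = (⟪Z u, v⟫_ℂ).re := by
      have : ⟪Z u, v⟫_ℂ = ⟪u, Z v⟫_ℂ := hsym u v
      rw [this]
    have h2 : (⟪v, Z u⟫_ℂ).re = (⟪Z u, v⟫_ℂ).re := inner_re_symm (𝕜 := ℂ) v (Z u)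
    have h3 := (abs_le.mp (h (u + v))).2
    have h4 := (abs_le.mp (h (u - v))).1
    have h5 : (⟪u + v, Z (u + v)⟫_ℂ).re =
        (⟪u, Z u⟫_ℂ).re + (⟪v, Z v⟫_ℂ).re + 2 * (⟪Z u, v⟫_ℂ).re := by
      rw [map_add, inner_add_left, inner_add_right, inner_add_right]
      simp only [Complex.add_re]
      rw [h1, h2]; ring
    have h6 : (⟪u - v, Z (u - v)⟫_ℂ).re =
        (⟪u, Z u⟫_ℂ).re + (⟪v, Z v⟫_ℂ).re - 2 * (⟪Z u, v⟫_ℂ).re := by
      rw [map_sub, inner_sub_left, inner_sub_right, inner_sub_right]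
      simp only [Complex.sub_re]
      rw [h1, h2]; ring
    have h7 := parallelogram_law_with_norm ℂ u v
    rw [h5] at h3
    rw [h6] at h4
    nlinarith
  by_cases hz : ‖Z u‖ = 0
  · rw [hz]; positivity
  · have hzp : 0 < ‖Z u‖ := lt_of_le_of_ne (norm_nonneg _) (Ne.symm hz)
    have h1 := key (((‖u‖ / ‖Z u‖ : ℝ) : ℂ) • Z u)
    rw [inner_smul_right, norm_smul, Complex.norm_real, Real.norm_of_nonneg (by positivity),
      div_mul_cancel₀ _ hz, Complex.re_ofReal_mul] at h1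
    have h2 : (⟪Z u, Z u⟫_ℂ).re = ‖Z u‖ ^ 2 := by
      rw [inner_self_eq_norm_sq_to_K]
      norm_cast
    rw [h2] at h1
    have h3 : ‖u‖ / ‖Z u‖ * ‖Z u‖ ^ 2 = ‖u‖ * ‖Z u‖ := by
      field_simp
    rw [h3] at h1
    by_cases hu : ‖u‖ = 0
    · have : ‖Z u‖ ≤ ‖Z‖ * ‖u‖ := Z.le_opNorm u
      rw [hu, mul_zero] at this
      linarith
    · have hup : 0 < ‖u‖ := lt_of_le_of_ne (norm_nonneg _) (Ne.symm hu)
      have h4 : ‖u‖ * ‖Z u‖ ≤ ‖u‖ * (C * ‖u‖) := by nlinarith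
      exact le_of_mul_le_mul_left h4 hup

theorem zero_pav {ε : ℝ} {r : ℕ} (hr : 1 ≤ r) :
    Vale.Agent.P078.SoPavable (Vale.Agent.P078.BH H) A 0 ε r := by
  intro F δ hδ
  refine ⟨fun i => if i = ⟨0, hr⟩ then 1 else 0, 0, 1, ⟨fun i => ?_, fun i => ?_,
    fun i j hij => ?_, ?_⟩, zero_mem A, IsSelfAdjoint.zero _, by simp,
    Vale.Agent.P078.mem_BH _, IsStarProjection.one _, fun ξ _ => ?_, ?_⟩
  · split_ifs
    · exact one_mem A
    · exact zero_mem A
  · split_ifs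
    · exact IsStarProjection.one _
    · exact IsStarProjection.zero _
  · by_cases h1 : i = ⟨0, hr⟩
    · have h2 : j ≠ ⟨0, hr⟩ := fun h => hij (h1.trans h.symm)
      simp [h1, h2]
    · simp [h1]
  · simp
  · simpa using hδ
  · simp

theorem exact_pav [Nontrivial H] (h : Vale.Agent.P078.MA A) (hd : Vale.Agent.P078.Diffuse A)
    {x : H →L[ℂ] H} (hx : IsSelfAdjoint x) {ε : ℝ} {r : ℕ} (hr : 1 ≤ r) (hε : 1 / (r : ℝ) ≤ ε) :
    Vale.Agent.P078.SoPavable (Vale.Agent.P078.BH H) A x ε r := by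
  by_cases hx0 : x = 0
  · rw [hx0]
    exact zero_pav hr
  have hr0 : (0 : ℝ) < r := by exact_mod_cast hr
  obtain ⟨T, hTA, hTs, hTn, hT⟩ := approx (toMax h) (toDiffuse h hd) x hx
  intro F δ hδ
  obtain ⟨V, s, θ, hV, hs, hθ, hθx, hF, hw⟩ := tilt (not_finite hd) hx0 F hδ
  obtain ⟨P, hP1, hP2, hP3, hP4⟩ := hT r hr V (θ / (2 * r)) (by positivity)
  have hs1 : |s| = 1 := by rcases hs with h | h <;> rw [h] <;> norm_num
  set q := V.starProjection with hq
  have hqp : IsStarProjection q := isStarProjection_starProjection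
  have hc : (1 - 1 / (r : ℂ)) = ((1 - 1 / (r : ℝ) : ℝ) : ℂ) := by push_cast; rfl
  have hr1 : 1 / (r : ℝ) ≤ 1 := by rw [div_le_one hr0]; exact_mod_cast hr
  have hr2 : (0 : ℝ) < 1 / r := by positivity
  refine ⟨P, (1 - 1 / (r : ℂ)) • T - ((s * θ / (2 * r) : ℝ) : ℂ) • (1 : H →L[ℂ] H), q,
    ⟨fun i => (hP1 i).1, fun i => (hP1 i).2, hP2, hP3⟩, ?_, ?_, ?_,
    Vale.Agent.P078.mem_BH _, hqp, fun ξ hξ => ?_, ?_⟩
  · exact sub_mem (A.smul_mem hTA _) (A.smul_mem (one_mem A) _)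
  · rw [hc]
    refine IsSelfAdjoint.sub (IsSelfAdjoint.smul ?_ hTs) (IsSelfAdjoint.smul ?_ (IsSelfAdjoint.one _))
    · exact Complex.conj_ofReal _
    · exact Complex.conj_ofReal _
  · have h1 : ‖(1 - 1 / (r : ℂ)) • T‖ ≤ (1 - 1 / (r : ℝ)) * ‖x‖ := by
      rw [norm_smul, hc, Complex.norm_real, Real.norm_of_nonneg (by linarith)]
      exact mul_le_mul_of_nonneg_left hTn (by linarith)
    have h2 : ‖((s * θ / (2 * r) : ℝ) : ℂ) • (1 : H →L[ℂ] H)‖ ≤ θ / (2 * r) := by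
      rw [norm_smul, Complex.norm_real, Real.norm_eq_abs, abs_div, abs_mul, hs1, one_mul,
        abs_of_pos hθ, abs_of_pos (by positivity : (0 : ℝ) < 2 * r)]
      have : ‖(1 : H →L[ℂ] H)‖ ≤ 1 := ContinuousLinearMap.norm_id_le
      calc θ / (2 * r) * ‖(1 : H →L[ℂ] H)‖ ≤ θ / (2 * r) * 1 := by gcongr
        _ = θ / (2 * r) := mul_one _
    have h3 : θ / (2 * r) ≤ 1 / (r : ℝ) * ‖x‖ := by
      rw [div_le_iff₀ (by positivity)]
      have : 1 / (r : ℝ) * ‖x‖ * (2 * r) = 2 * ‖x‖ := by field_simp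
      rw [this]
      linarith
    have h4 := norm_sub_le ((1 - 1 / (r : ℂ)) • T)
      (((s * θ / (2 * r) : ℝ) : ℂ) • (1 : H →L[ℂ] H))
    linarith
  · obtain ⟨v, hv, hξv⟩ := hF ξ hξ
    have h1 : (1 - q) v = 0 := by
      have : q v = v := Submodule.starProjection_eq_self_iff.mpr hv
      rw [sub_apply, one_apply_eq_self, this, sub_self]
    have h2 : (1 - q) ξ = (1 - q) (ξ - v) := by rw [map_sub, h1, sub_zero]
    rw [h2]
    exact lt_of_le_of_lt (proj_norm_le hqp.one_sub _) hξv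
  · set D : H →L[ℂ] H := ∑ i, P i * x * P i - (1 / (r : ℂ)) • x - (1 - 1 / (r : ℂ)) • T with hD
    set Y : H →L[ℂ] H := ((1 / r : ℝ) : ℂ) • x + ((s * θ / (2 * r) : ℝ) : ℂ) • (1 : H →L[ℂ] H)
      with hY
    have e1 : q * (∑ i, P i * x * P i - ((1 - 1 / (r : ℂ)) • T -
        ((s * θ / (2 * r) : ℝ) : ℂ) • (1 : H →L[ℂ] H))) * q = q * D * q + q * Y * q := by
      rw [← add_mul, ← mul_add]
      congr 2
      rw [hD, hY]
      push_cast
      abel
    have e2 : ‖q * Y * q‖ ≤ (‖x‖ - θ / 2) / r := by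
      have hYs : IsSelfAdjoint (q * Y * q) := by
        have hY0 : IsSelfAdjoint Y := by
          refine IsSelfAdjoint.add (IsSelfAdjoint.smul ?_ hx)
            (IsSelfAdjoint.smul ?_ (IsSelfAdjoint.one _))
          · exact Complex.conj_ofReal _
          · exact Complex.conj_ofReal _
        have := hY0.conjugate_self hqp.isSelfAdjoint
        exact this
      refine sa_norm hYs (div_nonneg (by linarith) hr0.le) fun w => ?_
      have f1 : ⟪w, (q * Y * q) w⟫_ℂ = ⟪q w, Y (q w)⟫_ℂ := by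
        rw [mul_apply_eq_comp, mul_apply_eq_comp, proj_inner hqp]
      have hqw : q w ∈ V := Submodule.starProjection_apply_mem _ _
      have f2 : (⟪q w, Y (q w)⟫_ℂ).re = 1 / r * (⟪q w, x (q w)⟫_ℂ).re +
          s * θ / (2 * r) * ‖q w‖ ^ 2 := by
        rw [hY, add_apply, smul_apply, smul_apply, one_apply_eq_self, inner_add_right,
          inner_smul_right, inner_smul_right, Complex.add_re, Complex.re_ofReal_mul,
          Complex.re_ofReal_mul]
        congr 2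
        rw [inner_self_eq_norm_sq_to_K]
        norm_cast
      have f3 := hw (q w) hqw
      have f4 : |(⟪q w, x (q w)⟫_ℂ).re| ≤ ‖x‖ * ‖q w‖ ^ 2 := by
        calc |(⟪q w, x (q w)⟫_ℂ).re| ≤ ‖⟪q w, x (q w)⟫_ℂ‖ := Complex.abs_re_le_norm _
          _ ≤ ‖q w‖ * ‖x (q w)‖ := norm_inner_le_norm _ _
          _ ≤ ‖q w‖ * (‖x‖ * ‖q w‖) := by gcongr; exact x.le_opNorm _
          _ = ‖x‖ * ‖q w‖ ^ 2 := by ring
      have f5 : |1 / r * (⟪q w, x (q w)⟫_ℂ).re + s * θ / (2 * r) * ‖q w‖ ^ 2| ≤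
          (‖x‖ - θ / 2) / r * ‖q w‖ ^ 2 := by
        set R := (⟪q w, x (q w)⟫_ℂ).re with hR
        set n := ‖q w‖ ^ 2 with hn
        have g1 : 1 / r * R + s * θ / (2 * r) * n = (R + s * (θ / 2) * n) / r := by
          field_simp
        have g2 : (‖x‖ - θ / 2) / r * n = ((‖x‖ - θ / 2) * n) / r := by ring
        rw [g1, g2, abs_div, abs_of_pos hr0]
        refine div_le_div_of_nonneg_right ?_ hr0.le
        have g3 := abs_le.mp f4
        rcases hs with h | h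
        · rw [h] at f3 ⊢
          rw [abs_le]
          constructor <;> nlinarith
        · rw [h] at f3 ⊢
          rw [abs_le]
          constructor <;> nlinarith
      rw [f1, f2]
      refine f5.trans ?_
      refine mul_le_mul_of_nonneg_left ?_ (div_nonneg (by linarith) hr0.le)
      exact pow_le_pow_left₀ (norm_nonneg _) (proj_norm_le hqp w) 2
    rw [e1]
    have e3 := norm_add_le (q * D * q) (q * Y * q)
    have e4 : θ / (2 * r) + (‖x‖ - θ / 2) / r = 1 / r * ‖x‖ := by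
      field_simp
      ring
    have e5 : 1 / (r : ℝ) * ‖x‖ ≤ ε * ‖x‖ := mul_le_mul_of_nonneg_right hε (norm_nonneg _)
    linarith

end P078
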