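import Vale.Agent.Lib.P078.Masa

/-!
# P078: in a diffuse maximal abelian algebra there are fine partitions
-/

open scoped InnerProductSpace Topology
open Filter

namespace P078

universe u

variable {H : Type u} [NormedAddCommGroup H] [InnerProductSpace ℂ H] [CompleteSpace H]
variable {A : StarSubalgebra ℂ (H →L[ℂ] H)}

theorem proj_inner {p : H →L[ℂ] H} (hp : IsStarProjection p) (v w : H) :
    ⟪p v, w⟫_ℂ = ⟪v, p w⟫_ℂ := by
  have h := hp.isSelfAdjoint
  rw [ContinuousLinearMap.isSelfAdjoint_iff'] at h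
  rw [← ContinuousLinearMap.adjoint_inner_right, h]

theorem proj_inner_self {p : H →L[ℂ] H} (hp : IsStarProjection p) (v : H) :
    ⟪p v, v⟫_ℂ = ((‖p v‖ ^ 2 : ℝ) : ℂ) := by
  have h1 : p (p v) = p v := congrArg (fun T : H →L[ℂ] H => T v) hp.isIdempotentElem.eq
  rw [← h1, proj_inner hp, h1, inner_self_eq_norm_sq_to_K]
  push_cast
  rfl

theorem proj_norm_le {p : H →L[ℂ] H} (hp : IsStarProjection p) (v : H) : ‖p v‖ ≤ ‖v‖ := by
  have h1 := proj_inner_self hp v
  have h2 : ‖⟪p v, v⟫_ℂ‖ ≤ ‖p v‖ * ‖v‖ := norm_inner_le_norm _ _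
  rw [h1, Complex.norm_real, Real.norm_of_nonneg (by positivity)] at h2
  by_cases h : ‖p v‖ = 0
  · rw [h]; exact norm_nonneg _
  · have h3 : 0 < ‖p v‖ := lt_of_le_of_ne (norm_nonneg _) (Ne.symm h)
    rw [sq] at h2
    exact le_of_mul_le_mul_left h2 h3

/-- weak limits of elements of `A` are in `A` -/
theorem Max.limit_mem (hA : Max A) {ι : Type*} {U : Ultrafilter ι} {T : ι → H →L[ℂ] H}
    {L : H →L[ℂ] H} (hT : ∀ i, T i ∈ A)
    (hL : ∀ v w, Tendsto (fun i => ⟪T i v, w⟫_ℂ) U (𝓝 ⟪L v, w⟫_ℂ)) : L ∈ A := by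
  refine hA.max _ fun a ha => ?_
  ext v
  refine ext_inner_right ℂ fun w => ?_
  simp only [mul_apply_eq_comp]
  have h1 := hL v (star a w)
  have h2 := hL (a v) w
  rw [ContinuousLinearMap.star_eq_adjoint] at h1
  simp only [ContinuousLinearMap.adjoint_inner_right] at h1
  refine tendsto_nhds_unique h1 (h2.congr fun i => ?_)
  have := congrArg (fun S : H →L[ℂ] H => S v) (hA.comm a ha (T i) (hT i))
  simp only [mul_apply_eq_comp] at this
  rw [this]

/-- coarser blocks are larger -/
theorem mesh_mono (hA : Max A) {P Q : Part A} (h : P ≤ Q) {v : H} {η : ℝ}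
    (hP : ∀ j, ‖P.e j v‖ ^ 2 ≤ η) : ∀ j, ‖Q.e j v‖ ^ 2 ≤ η := by
  intro j
  obtain ⟨i, hi⟩ := h j
  have h1 : Q.e j v = Q.e j (P.e i v) := by
    rw [hA.comm _ (P.mem i) _ (Q.mem j)] at hi
    exact (congrArg (fun S : H →L[ℂ] H => S v) hi).symm
  rw [h1]
  exact (pow_le_pow_left₀ (norm_nonneg _) (Part.e_norm_le Q j _) 2).trans (hP i)

theorem fine (hA : Max A) (hd : Diffuse A) (v : H) {η : ℝ} (hη : 0 < η) :
    ∀ᶠ Q : Part A in atTop, ∀ j, ‖Q.e j v‖ ^ 2 ≤ η := by
  have : IsDirected (Part A) (· ≤ ·) := Part.directed hA.comm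
  suffices h : ∃ Q : Part A, ∀ j, ‖Q.e j v‖ ^ 2 ≤ η by
    obtain ⟨Q, hQ⟩ := h
    filter_upwards [eventually_ge_atTop Q] with R hR
    exact mesh_mono hA hR hQ
  by_contra hcon
  push Not at hcon
  choose j hj using hcon
  have : (atTop : Filter (Part A)).NeBot := atTop_neBot
  let U : Ultrafilter (Part A) := Ultrafilter.of atTop
  have hU : (U : Filter (Part A)) ≤ atTop := Ultrafilter.of_le _
  have hT : ∀ Q : Part A, ‖Q.e (j Q)‖ ≤ 1 := fun Q =>
    ContinuousLinearMap.opNorm_le_bound _ zero_le_one fun v => by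
      rw [one_mul]; exact Part.e_norm_le Q _ v
  obtain ⟨L, -, hL⟩ := exists_weak_limit U (fun Q : Part A => Q.e (j Q)) hT
  have hLA : L ∈ A := hA.limit_mem (fun Q => Q.mem (j Q)) hL
  have hL0 : L ≠ 0 := by
    intro h0
    have h1 := hL v v
    rw [h0] at h1
    simp only [zero_apply, inner_zero_left] at h1
    have h2 := (Complex.continuous_re.tendsto _).comp h1
    have h3 : ∀ Q : Part A, η ≤ (Complex.re ∘ fun Q : Part A => ⟪Q.e (j Q) v, v⟫_ℂ) Q := by
      intro Q
      simp only [Function.comp_apply]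
      rw [proj_inner_self (Q.proj _), Complex.ofReal_re]
      exact (hj Q).le
    have h4 := ge_of_tendsto' h2 h3
    simp only [Complex.zero_re] at h4
    linarith
  -- every projection of `A` is trivial on the range of `L`
  have hp : ∀ p ∈ A, IsStarProjection p → p * L = L ∨ p * L = 0 := by
    intro p hpA hpp
    have h1 : ∀ᶠ Q : Part A in U, p * Q.e (j Q) = Q.e (j Q) ∨ p * Q.e (j Q) = 0 := by
      filter_upwards [hU (eventually_ge_atTop (Part.two p hpA hpp))] with Q hQ
      obtain ⟨i, hi⟩ := hQ (j Q)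
      change Fin 2 at i
      fin_cases i
      · exact Or.inl hi
      · right
        have h2 : (1 - p) * Q.e (j Q) = Q.e (j Q) := hi
        rw [sub_mul, one_mul] at h2
        simpa using h2
    have hlim : ∀ c : ℂ, (∀ᶠ Q : Part A in U, p * Q.e (j Q) = c • Q.e (j Q)) → p * L = c • L := by
      intro c hc
      ext v
      refine ext_inner_right ℂ fun w => ?_
      have e1 := hL v (p w)
      have e2 := (hL v w).const_mul (starRingEnd ℂ c)
      simp only [mul_apply_eq_comp, smul_apply, inner_smul_left]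
      rw [proj_inner hpp]
      refine tendsto_nhds_unique e1 (e2.congr' ?_)
      filter_upwards [hc] with Q hQ
      have := congrArg (fun S : H →L[ℂ] H => S v) hQ
      simp only [mul_apply_eq_comp, smul_apply] at this
      rw [← proj_inner hpp, this, inner_smul_left]
    rcases Ultrafilter.eventually_or.mp h1 with h | h
    · left
      have := hlim 1 (by simpa using h)
      simpa using this
    · right
      have := hlim 0 (by simpa using h)
      simpa using this
  have hs0 : rp L ≠ 0 := by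
    intro h
    apply hL0
    rw [← rp_mul_self L, h, zero_mul]
  have hsA : rp L ∈ A := hA.rp_mem hLA
  obtain ⟨e, heA, hep, he0, hes, hse⟩ := hd (rp L) hsA (rp_proj L) hs0
  have hcom := hA.comm e heA (rp L) hsA
  rcases hp e heA hep with h | h
  · have h1 : e * rp L = 1 * rp L := mul_rp_eq (by rw [h, one_mul])
    rw [one_mul, hcom, hse] at h1
    exact hes h1
  · have h1 : e * rp L = 0 * rp L := mul_rp_eq (by rw [h, zero_mul])
    rw [zero_mul, hcom, hse] at h1
    exact he0 h1

end P078
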