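import Vale.Agent.Lib.P078.Fine
import Vale.Agent.Lib.P078.Colour

/-!
# P078: coarsening a partition by a colouring
-/

open scoped InnerProductSpace Topology
open Finset

namespace P078

universe u

variable {H : Type u} [NormedAddCommGroup H] [InnerProductSpace ℂ H] [CompleteSpace H]
variable {A : StarSubalgebra ℂ (H →L[ℂ] H)}

namespace Part

/-- the union of the blocks of colour `i` -/
noncomputable def grp (Q : Part A) {r : ℕ} (c : Fin Q.n → Fin r) (i : Fin r) : H →L[ℂ] H :=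
  ∑ j, if c j = i then Q.e j else 0

theorem e_mul_e (Q : Part A) (i j : Fin Q.n) : Q.e i * Q.e j = if i = j then Q.e i else 0 := by
  split_ifs with h
  · rw [← h]; exact (Q.proj i).isIdempotentElem.eq
  · exact Q.orth i j h

theorem grp_mem (Q : Part A) {r : ℕ} (c : Fin Q.n → Fin r) (i : Fin r) : Q.grp c i ∈ A := by
  refine sum_mem fun j _ => ?_
  split_ifs
  · exact Q.mem j
  · exact zero_mem A

theorem grp_mul (Q : Part A) {r : ℕ} (c : Fin Q.n → Fin r) (i k : Fin r) :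
    Q.grp c i * Q.grp c k = if i = k then Q.grp c i else 0 := by
  unfold grp
  rw [Finset.sum_mul_sum]
  have h1 : ∀ j l, (if c j = i then Q.e j else 0) * (if c l = k then Q.e l else 0) =
      if j = l then (if c j = i ∧ c j = k then Q.e j else 0) else 0 := by
    intro j l
    by_cases hjl : j = l
    · subst hjl
      by_cases h2 : c j = i <;> by_cases h3 : c j = k <;> simp [h2, h3, e_mul_e]
    · rw [if_neg hjl]
      split_ifs <;> simp [Q.orth j l hjl]
  simp_rw [h1]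
  simp only [Finset.sum_ite_eq, Finset.mem_univ, if_true]
  by_cases hik : i = k
  · subst hik
    simp
  · rw [if_neg hik]
    refine Finset.sum_eq_zero fun j _ => ?_
    rw [if_neg]
    rintro ⟨h2, h3⟩
    exact hik (h2.symm.trans h3)

theorem grp_proj (Q : Part A) {r : ℕ} (c : Fin Q.n → Fin r) (i : Fin r) :
    IsStarProjection (Q.grp c i) := by
  refine ⟨?_, ?_⟩
  · rw [IsIdempotentElem, grp_mul, if_pos rfl]
  · unfold grp
    refine isSelfAdjoint_sum _ fun j _ => ?_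
    split_ifs
    · exact (Q.proj j).isSelfAdjoint
    · exact IsSelfAdjoint.zero _

theorem grp_orth (Q : Part A) {r : ℕ} (c : Fin Q.n → Fin r) (i k : Fin r) (h : i ≠ k) :
    Q.grp c i * Q.grp c k = 0 := by
  rw [grp_mul, if_neg h]

theorem grp_sum (Q : Part A) {r : ℕ} (c : Fin Q.n → Fin r) : ∑ i, Q.grp c i = 1 := by
  unfold grp
  rw [Finset.sum_comm]
  simp only [Finset.sum_ite_eq, Finset.mem_univ, if_true]
  exact Q.sum

/-- the pinching by the coarsened partition -/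
theorem grp_pinch (Q : Part A) {r : ℕ} (c : Fin Q.n → Fin r) (x : H →L[ℂ] H) :
    ∑ i, Q.grp c i * x * Q.grp c i =
      ∑ p : Fin Q.n × Fin Q.n, if c p.1 = c p.2 then Q.e p.1 * x * Q.e p.2 else 0 := by
  unfold grp
  rw [Fintype.sum_prod_type]
  have h1 : ∀ i : Fin r, (∑ j, if c j = i then Q.e j else 0) * x *
      (∑ j, if c j = i then Q.e j else 0) =
      ∑ j, ∑ k, if c j = i ∧ c k = i then Q.e j * x * Q.e k else 0 := by
    intro i
    rw [Finset.sum_mul, Finset.sum_mul_sum]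
    refine Finset.sum_congr rfl fun j _ => Finset.sum_congr rfl fun k _ => ?_
    by_cases h2 : c j = i <;> by_cases h3 : c k = i <;> simp [h2, h3]
  simp_rw [h1]
  rw [Finset.sum_comm]
  refine Finset.sum_congr rfl fun j _ => ?_
  rw [Finset.sum_comm]
  refine Finset.sum_congr rfl fun k _ => ?_
  by_cases h : c j = c k
  · rw [if_pos h]
    rw [Finset.sum_eq_single (c j)]
    · simp [h]
    · intro b _ hb
      rw [if_neg]
      rintro ⟨h2, -⟩
      exact hb h2.symm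
    · simp
  · rw [if_neg h]
    refine Finset.sum_eq_zero fun i _ => ?_
    rw [if_neg]
    rintro ⟨h2, h3⟩
    exact h (h2.trans h3.symm)

/-- the defect of a colouring -/
theorem defect (Q : Part A) {r : ℕ} (c : Fin Q.n → Fin r) (x : H →L[ℂ] H) (v w : H) :
    ⟪v, (∑ i, Q.grp c i * x * Q.grp c i - (1 / (r : ℂ)) • x -
      (1 - 1 / (r : ℂ)) • Q.pinch x) w⟫_ℂ =
      ∑ p : Fin Q.n × Fin Q.n, (zt c p : ℂ) * ⟪v, Q.e p.1 (x (Q.e p.2 w))⟫_ℂ := by
  have hx : x = ∑ p : Fin Q.n × Fin Q.n, Q.e p.1 * x * Q.e p.2 := by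
    rw [Fintype.sum_prod_type]
    simp_rw [← Finset.mul_sum, Q.sum, mul_one, ← Finset.sum_mul, Q.sum, one_mul]
  have hp : Q.pinch x = ∑ p : Fin Q.n × Fin Q.n,
      if p.1 = p.2 then Q.e p.1 * x * Q.e p.2 else 0 := by
    unfold pinch
    rw [Fintype.sum_prod_type]
    simp
  have h1 : ∑ i, Q.grp c i * x * Q.grp c i - (1 / (r : ℂ)) • x -
      (1 - 1 / (r : ℂ)) • Q.pinch x =
      ∑ p : Fin Q.n × Fin Q.n, (zt c p : ℂ) • (Q.e p.1 * x * Q.e p.2) := by
    conv_lhs => rw [grp_pinch, hp]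
    conv_lhs =>
      lhs
      rhs
      rw [hx]
    rw [Finset.smul_sum, Finset.smul_sum, ← Finset.sum_sub_distrib, ← Finset.sum_sub_distrib]
    refine Finset.sum_congr rfl fun p _ => ?_
    unfold zt
    by_cases h2 : p.1 = p.2
    · rw [if_pos h2, if_pos h2, if_pos (by rw [h2])]
      rw [Complex.ofReal_zero, zero_smul, sub_smul, one_smul]
      abel
    · rw [if_neg h2, if_neg h2, smul_zero, sub_zero]
      split_ifs with h3
      · push_cast
        rw [sub_smul, one_smul]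
      · push_cast
        rw [zero_sub, zero_sub, neg_smul]
  rw [h1]
  simp only [_root_.sum_apply, smul_apply, inner_sum, inner_smul_right, mul_apply_eq_comp]

theorem moment (Q : Part A) (x : H →L[ℂ] H) (v w : H) {η : ℝ} (hη : ∀ j, ‖Q.e j v‖ ^ 2 ≤ η) :
    ∑ p : Fin Q.n × Fin Q.n, ‖⟪v, Q.e p.1 (x (Q.e p.2 w))⟫_ℂ‖ ^ 2 ≤ η * ‖x‖ ^ 2 * ‖w‖ ^ 2 := by
  rw [Fintype.sum_prod_type_right]
  have h1 : ∀ j k, ‖⟪v, Q.e j (x (Q.e k w))⟫_ℂ‖ ^ 2 ≤ η * ‖Q.e j (x (Q.e k w))‖ ^ 2 := by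
    intro j k
    have h2 : ⟪v, Q.e j (x (Q.e k w))⟫_ℂ = ⟪Q.e j v, Q.e j (x (Q.e k w))⟫_ℂ := by
      rw [inner_e, e_apply_e]
    rw [h2]
    calc ‖⟪Q.e j v, Q.e j (x (Q.e k w))⟫_ℂ‖ ^ 2 ≤ (‖Q.e j v‖ * ‖Q.e j (x (Q.e k w))‖) ^ 2 :=
          pow_le_pow_left₀ (norm_nonneg _) (norm_inner_le_norm _ _) 2
      _ = ‖Q.e j v‖ ^ 2 * ‖Q.e j (x (Q.e k w))‖ ^ 2 := by ring
      _ ≤ η * ‖Q.e j (x (Q.e k w))‖ ^ 2 := by
          gcongr
          exact hη j
  by_cases hn : Nonempty (Fin Q.n)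
  swap
  · rw [not_nonempty_iff] at hn
    have hw : w = 0 := by
      have := sum_norm_sq Q w
      simp only [Finset.univ_eq_empty, Finset.sum_empty] at this
      have h0 : ‖w‖ = 0 := by
        have := this.symm
        exact pow_eq_zero_iff (two_ne_zero) |>.mp this
      exact norm_eq_zero.mp h0
    simp [hw]
  have hη0 : 0 ≤ η := (sq_nonneg _).trans (hη (Classical.arbitrary _))
  calc ∑ k, ∑ j, ‖⟪v, Q.e j (x (Q.e k w))⟫_ℂ‖ ^ 2
      ≤ ∑ k, ∑ j, η * ‖Q.e j (x (Q.e k w))‖ ^ 2 :=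
        Finset.sum_le_sum fun k _ => Finset.sum_le_sum fun j _ => h1 j k
    _ = ∑ k, η * ‖x (Q.e k w)‖ ^ 2 := by
        refine Finset.sum_congr rfl fun k _ => ?_
        rw [← Finset.mul_sum, sum_norm_sq]
    _ ≤ ∑ k, η * (‖x‖ * ‖Q.e k w‖) ^ 2 := by
        refine Finset.sum_le_sum fun k _ => ?_
        gcongr
        exact x.le_opNorm _
    _ = η * ‖x‖ ^ 2 * ∑ k, ‖Q.e k w‖ ^ 2 := by
        rw [Finset.mul_sum]
        refine Finset.sum_congr rfl fun k _ => ?_
        ring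
    _ = η * ‖x‖ ^ 2 * ‖w‖ ^ 2 := by rw [sum_norm_sq]

end Part

end P078
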