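import Vale.Agent.Lib.P078.Part

/-!
# P078: a maximal abelian algebra is its own commutant; projections onto closed ranges; weak limits
-/

open scoped InnerProductSpace Topology
open Filter

namespace P078

universe u

variable {H : Type u} [NormedAddCommGroup H] [InnerProductSpace ℂ H] [CompleteSpace H]
variable {A : StarSubalgebra ℂ (H →L[ℂ] H)}

/-- a maximal abelian self-adjoint algebra of bounded operators -/
structure Max (A : StarSubalgebra ℂ (H →L[ℂ] H)) : Prop where
  comm : ∀ a ∈ A, ∀ b ∈ A, a * b = b * a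
  max : ∀ y : H →L[ℂ] H, (∀ a ∈ A, a * y = y * a) → y ∈ A

theorem mem_of_sa (h : IsMasa ⊤ A) {y : H →L[ℂ] H} (hy : star y = y)
    (hc : ∀ a ∈ A, a * y = y * a) : y ∈ A := by
  obtain ⟨-, h1, h2⟩ := h
  set s : Set (H →L[ℂ] H) := (A : Set (H →L[ℂ] H)) ∪ {y} with hs
  have hss : ∀ b ∈ s, star b ∈ s := by
    rintro b (hb | hb)
    · exact Or.inl (star_mem hb)
    · rw [Set.mem_singleton_iff] at hb
      rw [hb, hy]
      exact Or.inr rfl
  have hcs : ∀ a ∈ s, ∀ b ∈ s, a * b = b * a := by
    rintro a (ha | ha) b (hb | hb)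
    · exact h1 a ha b hb
    · rw [Set.mem_singleton_iff] at hb
      rw [hb]
      exact hc a ha
    · rw [Set.mem_singleton_iff] at ha
      rw [ha]
      exact (hc b hb).symm
    · rw [Set.mem_singleton_iff] at ha hb
      rw [ha, hb]
  have hm := StarAlgebra.isMulCommutative_adjoin ℂ hcs (fun a ha b hb => hcs a ha _ (hss b hb))
  have h3 := h2 (StarAlgebra.adjoin ℂ s) le_top
    (fun a ha b hb => setLike_mul_comm ha hb)
    (fun a ha => StarAlgebra.subset_adjoin ℂ s (Or.inl ha))
  exact h3 (StarAlgebra.subset_adjoin ℂ s (Or.inr rfl))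

theorem IsMasa.isMax (h : IsMasa ⊤ A) : Max A := by
  refine ⟨h.2.1, fun y hy => ?_⟩
  have hs : ∀ a ∈ A, a * star y = star y * a := by
    intro a ha
    have := hy (star a) (star_mem ha)
    have h2 := congrArg star this
    rw [star_mul, star_mul, star_star] at h2
    exact h2.symm
  have h1 : y + star y ∈ A := by
    refine mem_of_sa h (by rw [star_add, star_star, add_comm]) fun a ha => ?_
    rw [mul_add, add_mul, hy a ha, hs a ha]
  have h2 : Complex.I • (y - star y) ∈ A := by
    refine mem_of_sa h ?_ fun a ha => ?_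
    · rw [star_smul, star_sub, star_star, Complex.star_def, Complex.conj_I, neg_smul, ← smul_neg,
        neg_sub]
    · rw [mul_smul_comm, smul_mul_assoc, mul_sub, sub_mul, hy a ha, hs a ha]
  have h3 : y = (1 / 2 : ℂ) • (y + star y) + (-Complex.I / 2) • (Complex.I • (y - star y)) := by
    rw [smul_smul]
    have : -Complex.I / 2 * Complex.I = 1 / 2 := by
      rw [div_mul_eq_mul_div, neg_mul, Complex.I_mul_I, neg_neg]
    rw [this, ← smul_add]
    rw [show y + star y + (y - star y) = (2 : ℂ) • y by rw [two_smul]; abel, smul_smul]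
    norm_num
  rw [h3]
  exact add_mem (A.smul_mem h1 _) (A.smul_mem h2 _)

/-- the projection onto the closure of the range -/
noncomputable def rp (y : H →L[ℂ] H) : H →L[ℂ] H :=
  (LinearMap.range (y : H →ₗ[ℂ] H)).topologicalClosure.starProjection

theorem rp_proj (y : H →L[ℂ] H) : IsStarProjection (rp y) := isStarProjection_starProjection

theorem rp_mul_self (y : H →L[ℂ] H) : rp y * y = y := by
  ext v
  exact Submodule.starProjection_eq_self_iff.mpr
    (Submodule.le_topologicalClosure _ (LinearMap.mem_range_self _ v))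

theorem rp_mem_closure (y : H →L[ℂ] H) (v : H) :
    rp y v ∈ (LinearMap.range (y : H →ₗ[ℂ] H)).topologicalClosure :=
  Submodule.starProjection_apply_mem _ _

/-- an operator which agrees with another one on the range agrees on the closure -/
theorem mul_rp_eq {y b c : H →L[ℂ] H} (h : b * y = c * y) : b * rp y = c * rp y := by
  ext v
  have h1 : (LinearMap.range (y : H →ₗ[ℂ] H)).topologicalClosure ≤
      LinearMap.ker ((b - c : H →L[ℂ] H) : H →ₗ[ℂ] H) := by
    refine Submodule.topologicalClosure_minimal _ ?_ (b - c).isClosed_ker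
    rintro _ ⟨w, rfl⟩
    have := congrArg (fun T : H →L[ℂ] H => T w) h
    simp only [mul_apply_eq_comp] at this
    rw [LinearMap.mem_ker]
    change b (y w) - c (y w) = 0
    rw [this, sub_self]
  have h2 := h1 (rp_mem_closure y v)
  rw [LinearMap.mem_ker] at h2
  exact sub_eq_zero.mp h2

theorem commute_of_invt {K : Submodule ℂ H} [K.HasOrthogonalProjection] {b : H →L[ℂ] H}
    (h1 : ∀ v ∈ K, b v ∈ K) (h2 : ∀ v ∈ K, star b v ∈ K) :
    b * K.starProjection = K.starProjection * b := by
  ext v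
  simp only [mul_apply_eq_comp]
  have h3 : b v - b (K.starProjection v) ∈ Kᗮ := by
    rw [← map_sub, Submodule.mem_orthogonal]
    intro w hw
    rw [← ContinuousLinearMap.adjoint_inner_left, ← ContinuousLinearMap.star_eq_adjoint]
    have h4 := Submodule.sub_starProjection_mem_orthogonal (K := K) v
    rw [Submodule.mem_orthogonal] at h4
    exact h4 _ (h2 w hw)
  exact (Submodule.eq_starProjection_of_mem_orthogonal (h1 _ (K.starProjection_apply_mem v)) h3).symm

theorem Max.rp_mem (hA : Max A) {y : H →L[ℂ] H} (hy : y ∈ A) : rp y ∈ A := by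
  refine hA.max _ fun a ha => ?_
  have key : ∀ b ∈ A, ∀ v ∈ (LinearMap.range (y : H →ₗ[ℂ] H)).topologicalClosure,
      b v ∈ (LinearMap.range (y : H →ₗ[ℂ] H)).topologicalClosure := by
    intro b hb
    have h1 : (LinearMap.range (y : H →ₗ[ℂ] H)).topologicalClosure ≤
        ((LinearMap.range (y : H →ₗ[ℂ] H)).topologicalClosure).comap (b : H →ₗ[ℂ] H) := by
      refine Submodule.topologicalClosure_minimal _ ?_ ?_
      · rintro _ ⟨w, rfl⟩
        rw [Submodule.mem_comap]
        have := congrArg (fun T : H →L[ℂ] H => T w) (hA.comm b hb y hy)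
        simp only [mul_apply_eq_comp] at this
        change b (y w) ∈ _
        rw [this]
        exact Submodule.le_topologicalClosure _ (LinearMap.mem_range_self _ _)
      · exact (Submodule.isClosed_topologicalClosure _).preimage b.continuous
    exact fun v hv => h1 hv
  exact commute_of_invt (key a ha) (key (star a) (star_mem ha))

/-- weak limits of bounded families along an ultrafilter -/
theorem exists_weak_limit {ι : Type*} (U : Ultrafilter ι) (T : ι → H →L[ℂ] H) {C : ℝ}
    (hT : ∀ i, ‖T i‖ ≤ C) :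
    ∃ L : H →L[ℂ] H, ‖L‖ ≤ C ∧ ∀ v w, Tendsto (fun i => ⟪T i v, w⟫_ℂ) U (𝓝 ⟪L v, w⟫_ℂ) := by
  obtain ⟨i₀⟩ : Nonempty ι := by
    by_contra h
    rw [not_nonempty_iff] at h
    exact U.neBot.ne (Filter.filter_eq_bot_of_isEmpty _)
  have hC : 0 ≤ C := (norm_nonneg _).trans (hT i₀)
  have hb : ∀ v w i, ‖⟪T i v, w⟫_ℂ‖ ≤ C * ‖v‖ * ‖w‖ := by
    intro v w i
    calc ‖⟪T i v, w⟫_ℂ‖ ≤ ‖T i v‖ * ‖w‖ := norm_inner_le_norm _ _
      _ ≤ (‖T i‖ * ‖v‖) * ‖w‖ := by gcongr; exact (T i).le_opNorm v
      _ ≤ C * ‖v‖ * ‖w‖ := by gcongr; exact hT i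
  have hlim : ∀ v w, ∃ c : ℂ, ‖c‖ ≤ C * ‖v‖ * ‖w‖ ∧
      Tendsto (fun i => ⟪T i v, w⟫_ℂ) U (𝓝 c) := by
    intro v w
    have hK : IsCompact (Metric.closedBall (0 : ℂ) (C * ‖v‖ * ‖w‖)) := isCompact_closedBall _ _
    obtain ⟨c, hc, hc2⟩ := hK.ultrafilter_le_nhds (U.map fun i => ⟪T i v, w⟫_ℂ) (by
      rw [Filter.le_principal_iff, Ultrafilter.coe_map, Filter.mem_map]
      exact Filter.Eventually.of_forall fun i => by simpa using hb v w i)
    exact ⟨c, by simpa using hc, hc2⟩
  choose c hc1 hc2 using hlim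
  have hu : ∀ {v w : H} {a : ℂ}, Tendsto (fun i => ⟪T i v, w⟫_ℂ) U (𝓝 a) → c v w = a :=
    fun {v w a} h => tendsto_nhds_unique (hc2 v w) h
  let B : H →ₗ⋆[ℂ] H →ₗ[ℂ] ℂ := LinearMap.mk₂'ₛₗ (starRingEnd ℂ) (RingHom.id ℂ) c
    (fun v v' w => hu (by
      simpa [map_add, inner_add_left] using (hc2 v w).add (hc2 v' w)))
    (fun a v w => hu (by
      simpa [map_smul, inner_smul_left, mul_comm] using (hc2 v w).const_mul (starRingEnd ℂ a)))
    (fun v w w' => hu (by
      simpa [inner_add_right] using (hc2 v w).add (hc2 v w')))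
    (fun a v w => hu (by
      simpa [inner_smul_right] using (hc2 v w).const_mul a))
  let B' : H →L⋆[ℂ] H →L[ℂ] ℂ := B.mkContinuous₂ C (fun v w => hc1 v w)
  let L := InnerProductSpace.continuousLinearMapOfBilin B'
  have hL : ∀ v w, ⟪L v, w⟫_ℂ = c v w := fun v w =>
    InnerProductSpace.continuousLinearMapOfBilin_apply B' v w
  refine ⟨L, ?_, fun v w => ?_⟩
  · refine ContinuousLinearMap.opNorm_le_bound _ hC fun v => ?_
    by_cases hv : ‖L v‖ = 0
    · rw [hv]; positivity
    · have h1 := hc1 v (L v)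
      rw [← hL, inner_self_eq_norm_sq_to_K] at h1
      have h2 : ‖L v‖ * ‖L v‖ ≤ C * ‖v‖ * ‖L v‖ := by
        simpa [sq] using h1
      exact le_of_mul_le_mul_right h2 (lt_of_le_of_ne (norm_nonneg _) (Ne.symm hv))
  · rw [hL]
    exact hc2 v w

end P078
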