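import Vale.Agent.Lib.P078.Defs

/-!
# P078: finite partitions in `A` and pinchings
-/

open scoped InnerProductSpace
open Finset

namespace P078

universe u

variable {H : Type u} [NormedAddCommGroup H] [InnerProductSpace ℂ H] [CompleteSpace H]

/-- a finite partition of unity by projections of `A` -/
structure Part (A : StarSubalgebra ℂ (H →L[ℂ] H)) where
  n : ℕ
  e : Fin n → H →L[ℂ] H
  mem : ∀ i, e i ∈ A
  proj : ∀ i, IsStarProjection (e i)
  orth : ∀ i j, i ≠ j → e i * e j = 0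
  sum : ∑ i, e i = 1

variable {A : StarSubalgebra ℂ (H →L[ℂ] H)}

namespace Part

/-- `Q` refines `P` -/
instance : Preorder (Part A) where
  le P Q := ∀ j, ∃ i, P.e i * Q.e j = Q.e j
  le_refl P := fun j => ⟨j, (P.proj j).isIdempotentElem⟩
  le_trans P Q R h1 h2 := fun k => by
    obtain ⟨j, hj⟩ := h2 k
    obtain ⟨i, hi⟩ := h1 j
    exact ⟨i, by rw [← hj, ← mul_assoc, hi]⟩

theorem le_def {P Q : Part A} : P ≤ Q ↔ ∀ j, ∃ i, P.e i * Q.e j = Q.e j := Iff.rfl

/-- the trivial partition -/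
def triv (A : StarSubalgebra ℂ (H →L[ℂ] H)) : Part A where
  n := 1
  e := fun _ => 1
  mem := fun _ => one_mem A
  proj := fun _ => IsStarProjection.one _
  orth := fun i j h => absurd (Subsingleton.elim i j) h
  sum := by simp

instance : Nonempty (Part A) := ⟨triv A⟩

/-- the partition `{p, 1 - p}` -/
def two (p : H →L[ℂ] H) (hp : p ∈ A) (hp' : IsStarProjection p) : Part A where
  n := 2
  e := ![p, 1 - p]
  mem := by
    intro i
    fin_cases i
    · exact hp
    · exact sub_mem (one_mem A) hp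
  proj := by
    intro i
    fin_cases i
    · exact hp'
    · exact hp'.one_sub
  orth := by
    intro i j h
    fin_cases i <;> fin_cases j
    · exact absurd rfl h
    · exact hp'.mul_one_sub_self
    · exact hp'.one_sub_mul_self
    · exact absurd rfl h
  sum := by simp [Fin.sum_univ_two]

/-- partitions with an arbitrary finite index type -/
noncomputable def ofFintype {ι : Type} [Fintype ι] (e : ι → H →L[ℂ] H) (mem : ∀ i, e i ∈ A)
    (proj : ∀ i, IsStarProjection (e i)) (orth : ∀ i j, i ≠ j → e i * e j = 0)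
    (sum : ∑ i, e i = 1) : Part A where
  n := Fintype.card ι
  e := fun k => e ((Fintype.equivFin ι).symm k)
  mem := fun k => mem _
  proj := fun k => proj _
  orth := fun i j h => orth _ _ (fun h' => h ((Fintype.equivFin ι).symm.injective h'))
  sum := by
    rw [Equiv.sum_comp (Fintype.equivFin ι).symm e]
    exact sum

/-- common refinement -/
noncomputable def inf (hc : ∀ a ∈ A, ∀ b ∈ A, a * b = b * a) (P Q : Part A) : Part A :=
  ofFintype (fun k : Fin P.n × Fin Q.n => P.e k.1 * Q.e k.2)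
    (fun k => mul_mem (P.mem _) (Q.mem _))
    (fun k => (P.proj k.1).mul (Q.proj k.2) (hc _ (P.mem _) _ (Q.mem _)))
    (by
      rintro ⟨i, j⟩ ⟨i', j'⟩ h
      simp only
      have h1 : P.e i * Q.e j * (P.e i' * Q.e j') = (P.e i * P.e i') * (Q.e j * Q.e j') := by
        rw [mul_assoc, ← mul_assoc (Q.e j), hc _ (Q.mem j) _ (P.mem i')]
        simp only [mul_assoc]
      rw [h1]
      by_cases h2 : i = i'
      · have h3 : j ≠ j' := fun h3 => h (by rw [h2, h3])
        rw [Q.orth j j' h3, mul_zero]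
      · rw [P.orth i i' h2, zero_mul])
    (by
      rw [Fintype.sum_prod_type]
      simp_rw [← Finset.mul_sum, Q.sum, mul_one]
      exact P.sum)

theorem le_inf_left (hc : ∀ a ∈ A, ∀ b ∈ A, a * b = b * a) (P Q : Part A) : P ≤ inf hc P Q := by
  intro k
  refine ⟨((Fintype.equivFin (Fin P.n × Fin Q.n)).symm k).1, ?_⟩
  change P.e _ * (P.e _ * Q.e _) = P.e _ * Q.e _
  rw [← mul_assoc, (P.proj _).isIdempotentElem.eq]

theorem le_inf_right (hc : ∀ a ∈ A, ∀ b ∈ A, a * b = b * a) (P Q : Part A) : Q ≤ inf hc P Q := by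
  intro k
  refine ⟨((Fintype.equivFin (Fin P.n × Fin Q.n)).symm k).2, ?_⟩
  change Q.e _ * (P.e _ * Q.e _) = P.e _ * Q.e _
  rw [hc _ (P.mem _) _ (Q.mem _), ← mul_assoc, (Q.proj _).isIdempotentElem.eq]

theorem directed (hc : ∀ a ∈ A, ∀ b ∈ A, a * b = b * a) : IsDirected (Part A) (· ≤ ·) :=
  ⟨fun P Q => ⟨inf hc P Q, le_inf_left hc P Q, le_inf_right hc P Q⟩⟩

/-- the pinching -/
def pinch (P : Part A) (x : H →L[ℂ] H) : H →L[ℂ] H := ∑ i, P.e i * x * P.e i

theorem e_apply_e (P : Part A) (i : Fin P.n) (v : H) : P.e i (P.e i v) = P.e i v := by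
  have := (P.proj i).isIdempotentElem.eq
  exact congrArg (fun T : H →L[ℂ] H => T v) this

theorem inner_e (P : Part A) (i : Fin P.n) (v w : H) : ⟪P.e i v, w⟫_ℂ = ⟪v, P.e i w⟫_ℂ := by
  have h := (P.proj i).isSelfAdjoint
  rw [ContinuousLinearMap.isSelfAdjoint_iff'] at h
  rw [← ContinuousLinearMap.adjoint_inner_right, h]

theorem inner_e_e (P : Part A) {i j : Fin P.n} (h : i ≠ j) (v w : H) :
    ⟪P.e i v, P.e j w⟫_ℂ = 0 := by
  rw [inner_e]
  have h1 : P.e i (P.e j w) = 0 := by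
    have := P.orth i j h
    exact congrArg (fun T : H →L[ℂ] H => T w) this
  rw [h1, inner_zero_right]

/-- Pythagoras -/
theorem norm_sum_sq (P : Part A) (v : Fin P.n → H) :
    ‖∑ i, P.e i (v i)‖ ^ 2 = ∑ i, ‖P.e i (v i)‖ ^ 2 := by
  have h1 : (⟪∑ i, P.e i (v i), ∑ i, P.e i (v i)⟫_ℂ) = ∑ i, ⟪P.e i (v i), P.e i (v i)⟫_ℂ := by
    rw [sum_inner]
    refine Finset.sum_congr rfl fun i _ => ?_
    rw [inner_sum, Finset.sum_eq_single i]
    · intro j _ hj
      exact inner_e_e P hj.symm _ _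
    · intro h
      exact absurd (Finset.mem_univ i) h
  have h2 : ((‖∑ i, P.e i (v i)‖ ^ 2 : ℝ) : ℂ) = ((∑ i, ‖P.e i (v i)‖ ^ 2 : ℝ) : ℂ) := by
    push_cast
    rw [inner_self_eq_norm_sq_to_K] at h1
    simp only [inner_self_eq_norm_sq_to_K] at h1
    exact_mod_cast h1
  exact_mod_cast h2

theorem sum_norm_sq (P : Part A) (v : H) : ∑ i, ‖P.e i v‖ ^ 2 = ‖v‖ ^ 2 := by
  rw [← norm_sum_sq P (fun _ => v)]
  have h1 : ∑ i, P.e i v = v := by
    have := congrArg (fun T : H →L[ℂ] H => T v) P.sum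
    simpa using this
  rw [h1]

/-- a block diagonal operator with small blocks is small -/
theorem block_norm (P : Part A) (y : Fin P.n → H →L[ℂ] H) {c : ℝ} (hc : 0 ≤ c)
    (hy : ∀ i v, ‖P.e i (y i (P.e i v))‖ ≤ c * ‖P.e i v‖) :
    ‖∑ i, P.e i * y i * P.e i‖ ≤ c := by
  refine ContinuousLinearMap.opNorm_le_bound _ hc fun v => ?_
  have h1 : (∑ i, P.e i * y i * P.e i) v = ∑ i, P.e i (y i (P.e i v)) := by
    simp
  rw [h1]
  have h2 := norm_sum_sq P (fun i => y i (P.e i v))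
  have h3 : ∑ i, ‖P.e i (y i (P.e i v))‖ ^ 2 ≤ (c * ‖v‖) ^ 2 := by
    calc ∑ i, ‖P.e i (y i (P.e i v))‖ ^ 2 ≤ ∑ i, (c * ‖P.e i v‖) ^ 2 :=
          Finset.sum_le_sum fun i _ => pow_le_pow_left₀ (norm_nonneg _) (hy i v) 2
      _ = c ^ 2 * ∑ i, ‖P.e i v‖ ^ 2 := by
          rw [Finset.mul_sum]
          exact Finset.sum_congr rfl fun i _ => by ring
      _ = (c * ‖v‖) ^ 2 := by rw [sum_norm_sq]; ring
  rw [← h2] at h3
  exact abs_le_of_sq_le_sq' h3 (by positivity) |>.2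

theorem e_norm_le (P : Part A) (i : Fin P.n) (v : H) : ‖P.e i v‖ ≤ ‖v‖ := by
  have h1 := sum_norm_sq P v
  have h2 : ‖P.e i v‖ ^ 2 ≤ ∑ i, ‖P.e i v‖ ^ 2 :=
    Finset.single_le_sum (f := fun i => ‖P.e i v‖ ^ 2) (fun _ _ => sq_nonneg _) (Finset.mem_univ i)
  rw [h1] at h2
  exact abs_le_of_sq_le_sq' h2 (norm_nonneg _) |>.2

theorem pinch_norm (P : Part A) (x : H →L[ℂ] H) : ‖P.pinch x‖ ≤ ‖x‖ := by
  refine block_norm P (fun _ => x) (norm_nonneg _) fun i v => ?_
  exact (e_norm_le P i _).trans (x.le_opNorm _)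

end Part

end P078
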