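import Vale.Agent.Lib.P078.Fine

/-!
# P078: spectral partitions and limits of pinchings
-/

open scoped InnerProductSpace Topology
open Filter

namespace P078

universe u

variable {H : Type u} [NormedAddCommGroup H] [InnerProductSpace ℂ H] [CompleteSpace H]
variable {A : StarSubalgebra ℂ (H →L[ℂ] H)}

/-- negative part of `a - l` -/
noncomputable def zz (a : H →L[ℂ] H) (l : ℝ) : H →L[ℂ] H := cfc (fun t : ℝ => max (l - t) 0) a

/-- positive part of `a - l` -/
noncomputable def yy (a : H →L[ℂ] H) (l : ℝ) : H →L[ℂ] H := cfc (fun t : ℝ => max (t - l) 0) a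

theorem zz_mul_yy (a : H →L[ℂ] H) (l : ℝ) : zz a l * yy a l = 0 := by
  unfold zz yy
  rw [← cfc_mul (fun t : ℝ => max (l - t) 0) (fun t : ℝ => max (t - l) 0) a
    (by fun_prop) (by fun_prop)]
  have : (fun t : ℝ => max (l - t) 0 * max (t - l) 0) = fun _ => 0 := by
    ext t
    rcases le_total t l with h | h
    · rw [max_eq_right (sub_nonpos.mpr h), mul_zero]
    · rw [max_eq_right (sub_nonpos.mpr h), zero_mul]
  rw [this, cfc_const_zero]

theorem Max.cfc_mem (hA : Max A) {a : H →L[ℂ] H} (ha : a ∈ A) (f : ℝ → ℝ) : cfc f a ∈ A :=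
  hA.max _ fun b hb => by
    have : Commute a b := (hA.comm a ha b hb)
    exact (this.cfc_real f).eq.symm

theorem slab {a : H →L[ℂ] H} (ha : IsSelfAdjoint a) {l m h : ℝ} (h1 : l ≤ m) (h2 : m ≤ l + h)
    {w : H} (hz : zz a l w = 0) (hy : yy a m w = 0) : ‖a w - (l : ℂ) • w‖ ≤ h * ‖w‖ := by
  have hh : 0 ≤ h := by linarith
  set f : ℝ → ℝ := fun t => (t - l) - max (t - m) 0 + max (l - t) 0 with hf
  have e1 : cfc (fun t : ℝ => t - l) a = a - algebraMap ℝ (H →L[ℂ] H) l := by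
    rw [cfc_sub (fun t : ℝ => t) (fun _ => l) a (by fun_prop) (by fun_prop), cfc_id' ℝ a,
      cfc_const l a]
  have e2 : cfc f a = (a - algebraMap ℝ (H →L[ℂ] H) l) - yy a m + zz a l := by
    rw [hf, cfc_add (a := a) (fun t : ℝ => (t - l) - max (t - m) 0) (fun t => max (l - t) 0)
      (by fun_prop) (by fun_prop),
      cfc_sub (fun t : ℝ => t - l) (fun t => max (t - m) 0) a (by fun_prop) (by fun_prop), e1]
    rfl
  have e3 : cfc f a w = a w - (l : ℂ) • w := by
    rw [e2]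
    simp only [add_apply, sub_apply, hz, hy]
    rw [Algebra.algebraMap_eq_smul_one, smul_apply, one_apply_eq_self, sub_zero, add_zero]
    rfl
  rw [← e3]
  refine (ContinuousLinearMap.le_opNorm _ _).trans ?_
  refine mul_le_mul_of_nonneg_right (norm_cfc_le hh fun t _ => ?_) (norm_nonneg _)
  rw [Real.norm_eq_abs, abs_le]
  simp only [hf]
  constructor
  · rcases max_cases (t - m) 0 with ⟨h3, h4⟩ | ⟨h3, h4⟩ <;>
    rcases max_cases (l - t) 0 with ⟨h5, h6⟩ | ⟨h5, h6⟩ <;> rw [h3, h5] <;> linarith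
  · rcases max_cases (t - m) 0 with ⟨h3, h4⟩ | ⟨h3, h4⟩ <;>
    rcases max_cases (l - t) 0 with ⟨h5, h6⟩ | ⟨h5, h6⟩ <;> rw [h3, h5] <;> linarith

theorem exists_bound (a : H →L[ℂ] H) : ∃ R : ℝ, 0 < R ∧ ∀ t ∈ spectrum ℝ a, |t| ≤ R := by
  have h := (spectrum.isCompact (𝕜 := ℝ) a).isBounded
  obtain ⟨R, hR⟩ := h.exists_norm_le
  exact ⟨max R 1, by positivity, fun t ht => (hR t ht).trans (le_max_left _ _)⟩

theorem zz_zero {a : H →L[ℂ] H} {R l : ℝ} (hR : ∀ t ∈ spectrum ℝ a, |t| ≤ R) (hl : l ≤ -R) :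
    zz a l = 0 := by
  unfold zz
  rw [cfc_congr (g := fun _ => (0 : ℝ)), cfc_const_zero]
  intro t ht
  have := abs_le.mp (hR t ht)
  exact max_eq_right (by linarith)

theorem yy_zero {a : H →L[ℂ] H} {R l : ℝ} (hR : ∀ t ∈ spectrum ℝ a, |t| ≤ R) (hl : R ≤ l) :
    yy a l = 0 := by
  unfold yy
  rw [cfc_congr (g := fun _ => (0 : ℝ)), cfc_const_zero]
  intro t ht
  have := abs_le.mp (hR t ht)
  exact max_eq_right (by linarith)

theorem ev_level (hA : Max A) {a : H →L[ℂ] H} (ha : a ∈ A) (l : ℝ) :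
    ∀ᶠ Q : Part A in atTop, ∀ j, zz a l * Q.e j = 0 ∨ yy a l * Q.e j = 0 := by
  have hy : yy a l ∈ A := hA.cfc_mem ha _
  filter_upwards [eventually_ge_atTop (Part.two (rp (yy a l)) (hA.rp_mem hy) (rp_proj _))]
    with Q hQ j
  obtain ⟨i, hi⟩ := hQ j
  change Fin 2 at i
  fin_cases i
  · left
    have h1 : rp (yy a l) * Q.e j = Q.e j := hi
    have h2 : zz a l * rp (yy a l) = 0 * rp (yy a l) :=
      mul_rp_eq (by rw [zz_mul_yy, zero_mul])
    rw [← h1, ← mul_assoc, h2, zero_mul, zero_mul]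
  · right
    have h1 : (1 - rp (yy a l)) * Q.e j = Q.e j := hi
    have h2 : yy a l * (1 - rp (yy a l)) = 0 := by
      rw [mul_sub, mul_one, hA.comm _ hy _ (hA.rp_mem hy), rp_mul_self, sub_self]
    rw [← h1, ← mul_assoc, h2, zero_mul]

theorem ev_scalar (hA : Max A) {a : H →L[ℂ] H} (ha : a ∈ A) (hs : IsSelfAdjoint a) {h : ℝ}
    (hh : 0 < h) : ∀ᶠ Q : Part A in atTop, ∀ j, ∃ c : ℂ, ∀ v,
      ‖a (Q.e j v) - c • Q.e j v‖ ≤ h * ‖Q.e j v‖ := by
  obtain ⟨R, hR0, hR⟩ := exists_bound a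
  obtain ⟨N, hN⟩ := exists_nat_ge (2 * R / h)
  have hN' : R ≤ -R + N * h := by
    rw [div_le_iff₀ hh] at hN
    linarith
  have hev : ∀ᶠ Q : Part A in atTop, ∀ k ∈ Finset.range (N + 1), ∀ j,
      zz a (-R + k * h) * Q.e j = 0 ∨ yy a (-R + k * h) * Q.e j = 0 :=
    (Filter.eventually_all_finset _).mpr fun k _ => ev_level hA ha _
  filter_upwards [hev] with Q hQ j
  have hex : ∃ k : ℕ, yy a (-R + k * h) * Q.e j = 0 := ⟨N, by rw [yy_zero hR hN', zero_mul]⟩
  classical
  have hap : ∀ {S : H →L[ℂ] H}, S * Q.e j = 0 → ∀ v, S (Q.e j v) = 0 := fun {S} hS v => by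
    have := congrArg (fun T : H →L[ℂ] H => T v) hS
    simpa using this
  have hm := Nat.find_spec hex
  have hmin : Nat.find hex ≤ N := Nat.find_min' hex (by rw [yy_zero hR hN', zero_mul])
  rcases Nat.eq_zero_or_pos (Nat.find hex) with h0 | h0
  · refine ⟨((-R : ℝ) : ℂ), fun v => ?_⟩
    refine slab hs (le_refl (-R)) (by linarith) ?_ (hap ?_ v)
    · rw [zz_zero hR le_rfl]; rfl
    · rw [h0] at hm
      simpa using hm
  · obtain ⟨m, hm2⟩ := Nat.exists_eq_succ_of_ne_zero h0.ne'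
    have h3 : ¬ yy a (-R + m * h) * Q.e j = 0 := Nat.find_min hex (by omega)
    have h4 := (hQ m (by simp; omega) j).resolve_right h3
    refine ⟨((-R + m * h : ℝ) : ℂ), fun v => ?_⟩
    refine slab (m := -R + ((m + 1 : ℕ) : ℝ) * h) hs ?_ ?_ (hap h4 v) (hap ?_ v)
    · push_cast; nlinarith
    · push_cast; nlinarith
    · rw [hm2] at hm
      exact hm

theorem ev_commute (hA : Max A) {a : H →L[ℂ] H} (ha : a ∈ A) (hs : IsSelfAdjoint a)
    (x : H →L[ℂ] H) {h : ℝ} (hh : 0 < h) : ∀ᶠ Q : Part A in atTop,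
      ‖a * Q.pinch x - Q.pinch x * a‖ ≤ 2 * h * ‖x‖ := by
  filter_upwards [ev_scalar hA ha hs hh] with Q hQ
  choose c hc using hQ
  have h1 : a * Q.pinch x - Q.pinch x * a =
      ∑ i, Q.e i * ((a - c i • (1 : H →L[ℂ] H)) * Q.e i * x
        - x * (Q.e i * (a - c i • (1 : H →L[ℂ] H)))) * Q.e i := by
    unfold Part.pinch
    rw [Finset.mul_sum, Finset.sum_mul, ← Finset.sum_sub_distrib]
    refine Finset.sum_congr rfl fun i _ => ?_
    have hi := hA.comm a ha _ (Q.mem i)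
    have hi2 := (Q.proj i).isIdempotentElem.eq
    have g1 : Q.e i * ((a - c i • (1 : H →L[ℂ] H)) * Q.e i * x) * Q.e i =
        a * (Q.e i * x * Q.e i) - c i • (Q.e i * x * Q.e i) := by
      rw [sub_mul, smul_mul_assoc, one_mul, sub_mul, smul_mul_assoc, mul_sub, mul_smul_comm,
        sub_mul, smul_mul_assoc]
      congr 1
      · rw [← mul_assoc, ← mul_assoc, ← hi, mul_assoc a, hi2]
        simp only [mul_assoc]
      · rw [← mul_assoc, hi2]
    have g2 : Q.e i * (x * (Q.e i * (a - c i • (1 : H →L[ℂ] H)))) * Q.e i =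
        (Q.e i * x * Q.e i) * a - c i • (Q.e i * x * Q.e i) := by
      rw [mul_sub, mul_smul_comm, mul_one, mul_sub, mul_smul_comm, mul_sub, mul_smul_comm,
        sub_mul, smul_mul_assoc]
      congr 1
      · simp only [mul_assoc]
        rw [hi, ← mul_assoc (Q.e i) (Q.e i), hi2]
      · rw [mul_assoc, mul_assoc, hi2]
        simp only [mul_assoc]
    rw [mul_sub, sub_mul, g1, g2]
    abel
  rw [h1]
  refine Part.block_norm Q _ (by positivity) fun i v => ?_
  have h2 : ((a - c i • (1 : H →L[ℂ] H)) * Q.e i * x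
        - x * (Q.e i * (a - c i • (1 : H →L[ℂ] H)))) (Q.e i v) =
      (a (Q.e i (x (Q.e i v))) - c i • Q.e i (x (Q.e i v))) -
        x (a (Q.e i v) - c i • Q.e i v) := by
    have hi : Q.e i (a (Q.e i v)) = a (Q.e i v) := by
      have h5 := congrArg (fun T : H →L[ℂ] H => T (Q.e i v)) (hA.comm a ha _ (Q.mem i))
      simp only [mul_apply_eq_comp] at h5
      rw [← h5, Part.e_apply_e]
    simp only [sub_apply, mul_apply_eq_comp, smul_apply, one_apply_eq_self,
      map_sub, map_smul, hi, Part.e_apply_e]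
  refine (Part.e_norm_le Q i _).trans ?_
  rw [h2]
  calc ‖(a (Q.e i (x (Q.e i v))) - c i • Q.e i (x (Q.e i v))) -
        x (a (Q.e i v) - c i • Q.e i v)‖
      ≤ ‖a (Q.e i (x (Q.e i v))) - c i • Q.e i (x (Q.e i v))‖ +
        ‖x (a (Q.e i v) - c i • Q.e i v)‖ := norm_sub_le _ _
    _ ≤ h * ‖Q.e i (x (Q.e i v))‖ + ‖x‖ * (h * ‖Q.e i v‖) := by
        gcongr
        · exact hc i _
        · exact (x.le_opNorm _).trans (by gcongr; exact hc i v)
    _ ≤ h * (‖x‖ * ‖Q.e i v‖) + ‖x‖ * (h * ‖Q.e i v‖) := by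
        gcongr
        exact (Part.e_norm_le Q i _).trans (x.le_opNorm _)
    _ = 2 * h * ‖x‖ * ‖Q.e i v‖ := by ring

/-- limits of pinchings are in `A` -/
theorem exists_limit (hA : Max A) (x : H →L[ℂ] H) (hx : IsSelfAdjoint x) :
    ∃ (U : Ultrafilter (Part A)) (T : H →L[ℂ] H), (U : Filter (Part A)) ≤ atTop ∧ T ∈ A ∧
      IsSelfAdjoint T ∧ ‖T‖ ≤ ‖x‖ ∧
      ∀ v w, Tendsto (fun Q : Part A => ⟪Q.pinch x v, w⟫_ℂ) U (𝓝 ⟪T v, w⟫_ℂ) := by
  have hdir : IsDirected (Part A) (· ≤ ·) := Part.directed hA.comm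
  have hne : (atTop : Filter (Part A)).NeBot := atTop_neBot
  let U : Ultrafilter (Part A) := Ultrafilter.of atTop
  have hU : (U : Filter (Part A)) ≤ atTop := Ultrafilter.of_le _
  obtain ⟨T, hT1, hT⟩ := exists_weak_limit U (fun Q : Part A => Q.pinch x)
    (fun Q => Part.pinch_norm Q x)
  refine ⟨U, T, hU, ?_, ?_, hT1, hT⟩
  · -- commutation
    have key : ∀ a ∈ A, IsSelfAdjoint a → a * T = T * a := by
      intro a ha hs
      ext v
      refine ext_inner_right ℂ fun w => ?_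
      simp only [mul_apply_eq_comp]
      rw [← sub_eq_zero, ← norm_le_zero_iff]
      have e1 := hT v (star a w)
      have e2 := hT (a v) w
      rw [ContinuousLinearMap.star_eq_adjoint] at e1
      simp only [ContinuousLinearMap.adjoint_inner_right] at e1
      have e3 := (e1.sub e2).norm
      have e4 : ∀ h : ℝ, 0 < h → ‖⟪a (T v), w⟫_ℂ - ⟪T (a v), w⟫_ℂ‖ ≤
          h * (2 * ‖x‖ * ‖v‖ * ‖w‖) := by
        intro h hh
        refine le_of_tendsto e3 ?_
        filter_upwards [hU (ev_commute hA ha hs x hh)] with Q hQ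
        rw [← inner_sub_left]
        have e5 : a (Q.pinch x v) - Q.pinch x (a v) = (a * Q.pinch x - Q.pinch x * a) v := rfl
        rw [e5]
        calc ‖⟪(a * Q.pinch x - Q.pinch x * a) v, w⟫_ℂ‖
            ≤ ‖(a * Q.pinch x - Q.pinch x * a) v‖ * ‖w‖ := norm_inner_le_norm _ _
          _ ≤ (‖a * Q.pinch x - Q.pinch x * a‖ * ‖v‖) * ‖w‖ := by
              gcongr; exact ContinuousLinearMap.le_opNorm _ _
          _ ≤ ((2 * h * ‖x‖) * ‖v‖) * ‖w‖ := by gcongr
          _ = h * (2 * ‖x‖ * ‖v‖ * ‖w‖) := by ring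
      by_contra hcon
      push Not at hcon
      set D := ‖⟪a (T v), w⟫_ℂ - ⟪T (a v), w⟫_ℂ‖ with hD
      set B := 2 * ‖x‖ * ‖v‖ * ‖w‖ with hB
      have hB0 : 0 ≤ B := by positivity
      have := e4 (D / (2 * (B + 1))) (by positivity)
      rw [div_mul_eq_mul_div, le_div_iff₀ (by positivity)] at this
      nlinarith
    refine hA.max _ fun a ha => ?_
    have h1 : a = (1 / 2 : ℂ) • (a + star a) + (-Complex.I / 2) • (Complex.I • (a - star a)) := by
      rw [smul_smul]
      have : -Complex.I / 2 * Complex.I = 1 / 2 := by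
        rw [div_mul_eq_mul_div, neg_mul, Complex.I_mul_I, neg_neg]
      rw [this, ← smul_add]
      rw [show a + star a + (a - star a) = (2 : ℂ) • a by rw [two_smul]; abel, smul_smul]
      norm_num
    have h2 := key (a + star a) (add_mem ha (star_mem ha)) (by
      rw [IsSelfAdjoint, star_add, star_star, add_comm])
    have h3 := key (Complex.I • (a - star a)) (A.smul_mem (sub_mem ha (star_mem ha)) _) (by
      rw [IsSelfAdjoint, star_smul, star_sub, star_star, Complex.star_def, Complex.conj_I,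
        neg_smul, ← smul_neg, neg_sub])
    rw [h1, add_mul, mul_add, smul_mul_assoc, h2, smul_mul_assoc, h3, mul_smul_comm,
      mul_smul_comm, mul_smul_comm, mul_smul_comm]
  · rw [ContinuousLinearMap.isSelfAdjoint_iff_isSymmetric] at hx ⊢
    intro v w
    change ⟪T v, w⟫_ℂ = ⟪v, T w⟫_ℂ
    have e1 := hT v w
    have e2 := (Complex.continuous_conj.tendsto _).comp (hT w v)
    rw [inner_conj_symm] at e2
    refine tendsto_nhds_unique e1 (e2.congr fun Q => ?_)
    simp only [Function.comp_apply]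
    rw [inner_conj_symm]
    unfold Part.pinch
    simp only [sum_apply, mul_apply_eq_comp, sum_inner, inner_sum]
    refine Finset.sum_congr rfl fun i _ => ?_
    rw [Part.inner_e, ← Part.inner_e]
    exact (hx _ _).symm

end P078
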