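import Vale.Agent.Lib.P078.Group
import Vale.Agent.Lib.P078.Spectral

/-!
# P078: compressions of coarse pinchings are close to `x / r` plus an element of `A`
-/

open scoped InnerProductSpace Topology
open Filter

namespace P078

universe u

variable {H : Type u} [NormedAddCommGroup H] [InnerProductSpace ℂ H] [CompleteSpace H]
variable {A : StarSubalgebra ℂ (H →L[ℂ] H)}

theorem compress_norm (V : Submodule ℂ H) [FiniteDimensional ℂ V] {m : ℕ}
    (b : OrthonormalBasis (Fin m) ℂ V) (Y : H →L[ℂ] H) :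
    ‖V.starProjection * Y * V.starProjection‖ ≤ ∑ i, ∑ j, ‖⟪(b i : H), Y (b j)⟫_ℂ‖ := by
  refine ContinuousLinearMap.opNorm_le_bound _ (by positivity) fun u => ?_
  have hq : ∀ u : H, V.starProjection u = ∑ i, ⟪(b i : H), u⟫_ℂ • (b i : H) := by
    intro u
    rw [b.starProjection_eq_sum_rankOne]
    simp
  have hb : ∀ i, ‖(b i : H)‖ = 1 := fun i => b.orthonormal.1 i
  have h1 : (V.starProjection * Y * V.starProjection) u =
      ∑ i, ∑ j, (⟪(b j : H), u⟫_ℂ * ⟪(b i : H), Y (b j)⟫_ℂ) • (b i : H) := by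
    simp only [mul_apply_eq_comp]
    rw [hq (Y (V.starProjection u))]
    refine Finset.sum_congr rfl fun i _ => ?_
    rw [hq u, map_sum, inner_sum, Finset.sum_smul]
    refine Finset.sum_congr rfl fun j _ => ?_
    rw [map_smul, inner_smul_right]
  rw [h1, Finset.sum_mul]
  refine (norm_sum_le _ _).trans (Finset.sum_le_sum fun i _ => ?_)
  rw [Finset.sum_mul]
  refine (norm_sum_le _ _).trans (Finset.sum_le_sum fun j _ => ?_)
  rw [norm_smul, norm_mul, hb i, mul_one, mul_comm]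
  gcongr
  calc ‖⟪(b j : H), u⟫_ℂ‖ ≤ ‖(b j : H)‖ * ‖u‖ := norm_inner_le_norm _ _
    _ = ‖u‖ := by rw [hb j, one_mul]

/-- the main approximation -/
theorem approx (hA : Max A) (hd : Diffuse A) (x : H →L[ℂ] H) (hx : IsSelfAdjoint x) :
    ∃ T : H →L[ℂ] H, T ∈ A ∧ IsSelfAdjoint T ∧ ‖T‖ ≤ ‖x‖ ∧
      ∀ (r : ℕ), 1 ≤ r → ∀ (V : Submodule ℂ H) [FiniteDimensional ℂ V] (η : ℝ), 0 < η →
        ∃ P : Fin r → H →L[ℂ] H, (∀ i, P i ∈ A ∧ IsStarProjection (P i)) ∧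
          (∀ i j, i ≠ j → P i * P j = 0) ∧ (∑ i, P i = 1) ∧
          ‖V.starProjection * (∑ i, P i * x * P i - (1 / (r : ℂ)) • x - (1 - 1 / (r : ℂ)) • T) *
            V.starProjection‖ ≤ η := by
  obtain ⟨U, T, hU, hTA, hTs, hTn, hT⟩ := exists_limit hA x hx
  refine ⟨T, hTA, hTs, hTn, fun r hr V _ η hη => ?_⟩
  obtain ⟨m, hm⟩ : ∃ m, m = Module.finrank ℂ V := ⟨_, rfl⟩
  let b : OrthonormalBasis (Fin (Module.finrank ℂ V)) ℂ V := stdOrthonormalBasis ℂ V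
  set η₁ : ℝ := η / (2 * m ^ 2 + 1) with hη₁
  have hη₁0 : 0 < η₁ := by positivity
  set η₂ : ℝ := η₁ ^ 2 / (2 * m ^ 2 * ‖x‖ ^ 2 + 1) with hη₂
  have hη₂0 : 0 < η₂ := by positivity
  have hb : ∀ i, ‖(b i : H)‖ = 1 := fun i => b.orthonormal.1 i
  have e1 : ∀ᶠ Q : Part A in U, ∀ i, ∀ k, ‖Q.e k (b i)‖ ^ 2 ≤ η₂ :=
    Filter.eventually_all.mpr fun i => hU (fine hA hd (b i : H) hη₂0)
  have e2 : ∀ᶠ Q : Part A in U, ∀ i, ∀ j,
      ‖⟪Q.pinch x (b i), (b j : H)⟫_ℂ - ⟪T (b i), (b j : H)⟫_ℂ‖ < η₁ := by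
    refine Filter.eventually_all.mpr fun i => Filter.eventually_all.mpr fun j => ?_
    have := (Metric.tendsto_nhds.mp (hT (b i) (b j))) η₁ hη₁0
    simpa [dist_eq_norm] using this
  obtain ⟨Q, hQ1, hQ2⟩ := (e1.and e2).exists
  obtain ⟨c, hc⟩ := exists_colouring (n := Q.n) (r := r) hr
    (S := Fin (Module.finrank ℂ V) × Fin (Module.finrank ℂ V))
    (fun s p => ⟪(b s.1 : H), Q.e p.1 (x (Q.e p.2 (b s.2)))⟫_ℂ)
  refine ⟨Q.grp c, fun i => ⟨Q.grp_mem c i, Q.grp_proj c i⟩, Q.grp_orth c, Q.grp_sum c, ?_⟩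
  refine (compress_norm V b _).trans ?_
  have hY : ∀ i j, ‖⟪(b i : H), (∑ k, Q.grp c k * x * Q.grp c k - (1 / (r : ℂ)) • x -
      (1 - 1 / (r : ℂ)) • Q.pinch x) (b j)⟫_ℂ‖ ≤ η₁ := by
    intro i j
    rw [Part.defect]
    have h1 : ‖∑ p : Fin Q.n × Fin Q.n, (zt c p : ℂ) *
        ⟪(b i : H), Q.e p.1 (x (Q.e p.2 (b j)))⟫_ℂ‖ ^ 2 ≤ η₁ ^ 2 := by
      refine (Finset.single_le_sum (f := fun s : Fin (Module.finrank ℂ V) ×
        Fin (Module.finrank ℂ V) => ‖∑ p : Fin Q.n × Fin Q.n, (zt c p : ℂ) *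
        ⟪(b s.1 : H), Q.e p.1 (x (Q.e p.2 (b s.2)))⟫_ℂ‖ ^ 2) (fun _ _ => sq_nonneg _)
        (Finset.mem_univ (i, j))).trans (hc.trans ?_)
      calc 2 * ∑ s : Fin (Module.finrank ℂ V) × Fin (Module.finrank ℂ V),
            ∑ p : Fin Q.n × Fin Q.n, ‖⟪(b s.1 : H), Q.e p.1 (x (Q.e p.2 (b s.2)))⟫_ℂ‖ ^ 2
          ≤ 2 * ∑ s : Fin (Module.finrank ℂ V) × Fin (Module.finrank ℂ V),
            η₂ * ‖x‖ ^ 2 := by
            gcongr with s _
            have := Part.moment Q x (b s.1 : H) (b s.2 : H) (hQ1 s.1)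
            rwa [hb, one_pow, mul_one] at this
        _ = 2 * m ^ 2 * ‖x‖ ^ 2 * η₂ := by
            rw [Finset.sum_const, Finset.card_univ, Fintype.card_prod, Fintype.card_fin, ← hm,
              nsmul_eq_mul]
            push_cast
            ring
        _ ≤ η₁ ^ 2 := by
            rw [hη₂, mul_div_assoc', div_le_iff₀ (by positivity)]
            nlinarith [sq_nonneg η₁]
    exact abs_le_of_sq_le_sq' h1 hη₁0.le |>.2
  have hpt : ∀ i j, ‖⟪(b i : H), (∑ k, Q.grp c k * x * Q.grp c k - (1 / (r : ℂ)) • x -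
      (1 - 1 / (r : ℂ)) • T) (b j)⟫_ℂ‖ ≤ 2 * η₁ := by
    intro i j
    have h1 : (∑ k, Q.grp c k * x * Q.grp c k - (1 / (r : ℂ)) • x -
      (1 - 1 / (r : ℂ)) • T) (b j : H) = (∑ k, Q.grp c k * x * Q.grp c k - (1 / (r : ℂ)) • x -
      (1 - 1 / (r : ℂ)) • Q.pinch x) (b j : H) +
      (1 - 1 / (r : ℂ)) • (Q.pinch x (b j : H) - T (b j : H)) := by
      simp only [sub_apply, smul_apply, smul_sub]
      abel
    rw [h1, inner_add_right, inner_smul_right]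
    have h2 : ‖(1 - 1 / (r : ℂ))‖ ≤ 1 := by
      have hr0 : (0 : ℝ) < r := by exact_mod_cast hr
      have h3 : (1 - 1 / (r : ℂ)) = ((1 - 1 / (r : ℝ) : ℝ) : ℂ) := by push_cast; rfl
      rw [h3, Complex.norm_real, Real.norm_eq_abs, abs_le]
      have h4 : 1 / (r : ℝ) ≤ 1 := by
        rw [div_le_one hr0]; exact_mod_cast hr
      have h5 : 0 ≤ 1 / (r : ℝ) := by positivity
      constructor <;> linarith
    have h3 : ‖⟪(b i : H), Q.pinch x (b j : H) - T (b j : H)⟫_ℂ‖ ≤ η₁ := by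
      have := (hQ2 j i).le
      rw [← inner_sub_left] at this
      rw [← norm_inner_symm]
      exact this
    calc ‖_ + _‖ ≤ _ := norm_add_le _ _
      _ ≤ η₁ + 1 * η₁ := by
          gcongr
          · exact hY i j
          · rw [norm_mul]
            gcongr
      _ = 2 * η₁ := by ring
  calc ∑ i, ∑ j, ‖⟪(b i : H), (∑ k, Q.grp c k * x * Q.grp c k - (1 / (r : ℂ)) • x -
      (1 - 1 / (r : ℂ)) • T) (b j)⟫_ℂ‖
      ≤ ∑ i : Fin (Module.finrank ℂ V), ∑ j : Fin (Module.finrank ℂ V), 2 * η₁ :=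
        Finset.sum_le_sum fun i _ => Finset.sum_le_sum fun j _ => hpt i j
    _ = 2 * m ^ 2 * η₁ := by
        rw [Finset.sum_const, Finset.sum_const, Finset.card_univ, Fintype.card_fin, ← hm,
          nsmul_eq_mul, nsmul_eq_mul]
        ring
    _ ≤ η := by
        rw [hη₁, mul_div_assoc', div_le_iff₀ (by positivity)]
        nlinarith

end P078
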